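import Vale.Agent.N264X.S.Defs
import Mathlib.Analysis.SpecialFunctions.Pow.Real
import Mathlib.Analysis.Calculus.Deriv.Inv
import Mathlib.Analysis.Calculus.Deriv.Pow
import Mathlib.Analysis.Calculus.IteratedDeriv.Lemmas

/-!
# P264, block S3b: a trapped solution is a shrinker

`Bd m f` says that `f, D f, …, D^m f` are bounded on `(64, ∞)`, `D = x d/dx`.
-/

open scoped ContDiff
open Set Filter Topology

noncomputable section

namespace Vale.Agent.N264X.P264Z.S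

open Vale.Agent.P264Z

/-- `f, D f, …, D^m f` are bounded on `(64, ∞)` -/
def Bd : ℕ → (ℝ → ℝ) → Prop
  | 0, f => ∃ C : ℝ, ∀ x, 64 < x → |f x| ≤ C
  | m + 1, f => (∃ C : ℝ, ∀ x, 64 < x → |f x| ≤ C) ∧
      ∃ g : ℝ → ℝ, (∀ x, 64 < x → HasDerivAt f (g x / x) x) ∧ Bd m g

theorem Bd.zero {m : ℕ} {f : ℝ → ℝ} (h : Bd m f) : Bd 0 f := by
  cases m with
  | zero => exact h
  | succ m => exact h.1

theorem Bd.step {m : ℕ} {f g : ℝ → ℝ} (h0 : Bd 0 f)
    (hd : ∀ x, 64 < x → HasDerivAt f (g x / x) x) (hg : Bd m g) : Bd (m + 1) f :=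
  ⟨h0, g, hd, hg⟩

theorem Bd.pred {m : ℕ} : ∀ {f : ℝ → ℝ}, Bd (m + 1) f → Bd m f := by
  induction m with
  | zero => intro f h; exact h.1
  | succ m ih =>
    intro f h
    obtain ⟨h0, g, hd, hg⟩ := h
    exact ⟨h0, g, hd, ih hg⟩

theorem Bd.mono {m k : ℕ} {f : ℝ → ℝ} (hmk : m ≤ k) (h : Bd k f) : Bd m f := by
  induction hmk with
  | refl => exact h
  | step _ ih => exact ih h.pred

theorem Bd.congr {m : ℕ} {f g : ℝ → ℝ} (h : Bd m f) (e : ∀ x, 64 < x → g x = f x) : Bd m g := by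
  have h0 : Bd 0 g := by
    obtain ⟨C, hC⟩ := h.zero
    exact ⟨C, fun x hx => by rw [e x hx]; exact hC x hx⟩
  cases m with
  | zero => exact h0
  | succ m =>
    obtain ⟨-, k, hd, hk⟩ := h
    refine ⟨h0, k, fun x hx => (hd x hx).congr_of_eventuallyEq ?_, hk⟩
    filter_upwards [Ioi_mem_nhds hx] with y hy using e y hy

theorem Bd.const (m : ℕ) : ∀ a : ℝ, Bd m (fun _ => a) := by
  induction m with
  | zero => intro a; exact ⟨|a|, fun _ _ => le_rfl⟩
  | succ m ih =>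
    intro a
    refine ⟨⟨|a|, fun _ _ => le_rfl⟩, fun _ => 0, fun x _ => ?_, ih 0⟩
    simpa using hasDerivAt_const x a

theorem Bd.add {m : ℕ} : ∀ {f g : ℝ → ℝ}, Bd m f → Bd m g → Bd m (fun x => f x + g x) := by
  have h0 : ∀ {f g : ℝ → ℝ}, Bd 0 f → Bd 0 g → Bd 0 (fun x => f x + g x) := by
    rintro f g ⟨C, hC⟩ ⟨D, hD⟩
    exact ⟨C + D, fun x hx => (abs_add_le _ _).trans (add_le_add (hC x hx) (hD x hx))⟩
  induction m with
  | zero => exact h0
  | succ m ih =>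
    intro f g hf hg
    obtain ⟨hf0, f', hdf, hf'⟩ := hf
    obtain ⟨hg0, g', hdg, hg'⟩ := hg
    refine ⟨h0 hf0 hg0, fun x => f' x + g' x, fun x hx => ?_, ih hf' hg'⟩
    have := (hdf x hx).add (hdg x hx)
    rw [← add_div] at this
    exact this

theorem Bd.mul {m : ℕ} : ∀ {f g : ℝ → ℝ}, Bd m f → Bd m g → Bd m (fun x => f x * g x) := by
  have h0 : ∀ {f g : ℝ → ℝ}, Bd 0 f → Bd 0 g → Bd 0 (fun x => f x * g x) := by
    rintro f g ⟨C, hC⟩ ⟨D, hD⟩
    refine ⟨C * D, fun x hx => ?_⟩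
    rw [abs_mul]
    exact mul_le_mul (hC x hx) (hD x hx) (abs_nonneg _) ((abs_nonneg _).trans (hC x hx))
  induction m with
  | zero => exact h0
  | succ m ih =>
    intro f g hf hg
    have hf1 := hf.pred
    have hg1 := hg.pred
    obtain ⟨hf0, f', hdf, hf'⟩ := hf
    obtain ⟨hg0, g', hdg, hg'⟩ := hg
    refine ⟨h0 hf0 hg0, fun x => f' x * g x + f x * g' x, fun x hx => ?_,
      (ih hf' hg1).add (ih hf1 hg')⟩
    have := (hdf x hx).mul (hdg x hx)
    refine HasDerivAt.congr_deriv this ?_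
    ring

theorem Bd.cmul {m : ℕ} {f : ℝ → ℝ} (a : ℝ) (h : Bd m f) : Bd m (fun x => a * f x) :=
  (Bd.const m a).mul h

theorem Bd.inv {m : ℕ} {e : ℝ} (he : 0 < e) :
    ∀ {f : ℝ → ℝ}, (∀ x, 64 < x → e ≤ f x) → Bd m f → Bd m (fun x => (f x)⁻¹) := by
  have h0 : ∀ {f : ℝ → ℝ}, (∀ x, 64 < x → e ≤ f x) → Bd 0 (fun x => (f x)⁻¹) := by
    intro f hf
    refine ⟨e⁻¹, fun x hx => ?_⟩
    have h1 := hf x hx
    rw [abs_of_pos (inv_pos.2 (he.trans_le h1))]
    exact inv_anti₀ he h1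
  induction m with
  | zero => intro f hf _; exact h0 hf
  | succ m ih =>
    intro f hf h
    have h1 := ih hf h.pred
    obtain ⟨-, f', hdf, hf'⟩ := h
    refine ⟨h0 hf, fun x => -1 * (f' x * ((f x)⁻¹ * (f x)⁻¹)), fun x hx => ?_,
      (hf'.mul (h1.mul h1)).cmul (-1)⟩
    have hne : f x ≠ 0 := (he.trans_le (hf x hx)).ne'
    have := (hdf x hx).inv hne
    refine HasDerivAt.congr_deriv this ?_
    field_simp

theorem bd_z (m : ℕ) : Bd m (fun x => 1 / x ^ 2) := by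
  have h0 : Bd 0 (fun x : ℝ => 1 / x ^ 2) := by
    refine ⟨1, fun x hx => ?_⟩
    have : (1 : ℝ) ≤ x ^ 2 := by nlinarith
    rw [abs_of_pos (by positivity)]
    exact (div_le_one (by positivity)).2 this
  induction m with
  | zero => exact h0
  | succ m ih =>
    refine ⟨h0, fun x => -2 * (1 / x ^ 2), fun x hx => ?_, ih.cmul (-2)⟩
    have hx0 : x ≠ 0 := by positivity
    have := ((hasDerivAt_pow 2 x).inv (pow_ne_zero 2 hx0))
    simp only [one_div]
    refine HasDerivAt.congr_deriv this ?_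
    field_simp
    push_cast
    ring

/-- cube roots -/
theorem exists_cube {x : ℝ} (hx : 64 ≤ x) : ∃ w : ℝ, 4 ≤ w ∧ w ^ 3 = x := by
  have hx0 : 0 ≤ x := by linarith
  have h3 : (x ^ ((3 : ℕ) : ℝ)⁻¹) ^ 3 = x := Real.rpow_inv_natCast_pow hx0 (by norm_num)
  refine ⟨x ^ ((3 : ℕ) : ℝ)⁻¹, ?_, h3⟩
  refine le_of_not_gt fun hlt => ?_
  have h0 : 0 ≤ x ^ ((3 : ℕ) : ℝ)⁻¹ := Real.rpow_nonneg hx0 _
  have := pow_lt_pow_left₀ hlt h0 (n := 3) (by norm_num)
  rw [h3] at this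
  linarith

theorem abs_pow_mul_le {w t C : ℝ} {a b : ℕ} (hw : 1 ≤ w) (hab : a ≤ b) (h : |w ^ b * t| ≤ C) :
    |w ^ a * t| ≤ C := by
  refine le_trans ?_ h
  rw [abs_mul, abs_mul, abs_of_nonneg (by positivity : 0 ≤ w ^ a),
    abs_of_nonneg (by positivity : 0 ≤ w ^ b)]
  exact mul_le_mul_of_nonneg_right (pow_le_pow_right₀ hw hab) (abs_nonneg _)

theorem abs_le_of_cmul {a t C : ℝ} (ha : 1 ≤ a) (h : |a * t| ≤ C) : |t| ≤ C := by
  rw [abs_mul, abs_of_nonneg (by linarith : 0 ≤ a)] at h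
  nlinarith [abs_nonneg t]

section

variable {σ : ℝ → ℝ}

theorem hd_iter (hs : ContDiff ℝ ∞ σ) (j : ℕ) (x : ℝ) :
    HasDerivAt (iteratedDeriv j σ) (iteratedDeriv (j + 1) σ x) x := by
  rw [iteratedDeriv_succ]
  have : Differentiable ℝ (iteratedDeriv j σ) :=
    hs.differentiable_iteratedDeriv j (by exact_mod_cast ENat.natCast_lt_top j)
  exact (this x).hasDerivAt

theorem hd0 (hs : ContDiff ℝ ∞ σ) (x : ℝ) : HasDerivAt σ (deriv σ x) x := by
  simpa using hd_iter hs 0 x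

theorem hd1 (hs : ContDiff ℝ ∞ σ) (x : ℝ) : HasDerivAt (deriv σ) (deriv (deriv σ) x) x := by
  simpa [iteratedDeriv_succ] using hd_iter hs 1 x

theorem hdY0 (hs : ContDiff ℝ ∞ σ) {x : ℝ} (hx : x ≠ 0) : HasDerivAt (Y0 σ) (Y1 σ x / x) x := by
  have := ((hasDerivAt_id x).mul (hd0 hs x)).const_sub 1
  refine HasDerivAt.congr_deriv this ?_
  simp only [Y1, id]
  field_simp
  ring

theorem hdY1 (hs : ContDiff ℝ ∞ σ) {x : ℝ} (hx : x ≠ 0) : HasDerivAt (Y1 σ) (Y2 σ x / x) x := by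
  have := ((hasDerivAt_id x).neg.mul (hd0 hs x)).sub ((hasDerivAt_pow 2 x).mul (hd1 hs x))
  refine HasDerivAt.congr_deriv this ?_
  simp only [Y2, Mop, id, Pi.neg_apply]
  field_simp
  push_cast
  ring

theorem hdY2 (hs : ContDiff ℝ ∞ σ) {x s : ℝ} (hx : x ≠ 0) (h : HasDerivAt (Mop 7 σ) s x) :
    HasDerivAt (Y2 σ) ((-12 * Y2 σ x - 29 * Y1 σ x + 42 * (Y0 σ x - 1) - x ^ 2 * s) / x) x := by
  have := ((((hasDerivAt_id x).const_mul 55).mul (hd0 hs x)).add
    (((hasDerivAt_pow 2 x).const_mul 13).mul (hd1 hs x))).sub ((hasDerivAt_id x).mul h)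
  refine HasDerivAt.congr_deriv this ?_
  simp only [Y2, Y1, Y0, Mop, id]
  field_simp
  push_cast
  ring

theorem bd_iter (hs : ContDiff ℝ ∞ σ) (h : Bd 6 (Y0 σ)) :
    ∀ j m, j + m = 6 → Bd m (fun x => x ^ (j + 1) * iteratedDeriv j σ x) := by
  intro j
  induction j with
  | zero =>
    intro m hm
    obtain rfl : m = 6 := by omega
    refine ((Bd.const 6 1).add (h.cmul (-1))).congr fun x _ => ?_
    simp [Y0]
  | succ j ih =>
    intro m hm
    have h1 := ih (m + 1) (by omega)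
    have h2 := h1.pred
    obtain ⟨-, g, hd, hg⟩ := h1
    refine (hg.add (h2.cmul (-((j : ℝ) + 1)))).congr fun x hx => ?_
    have hx0 : x ≠ 0 := by positivity
    have h3 := (hasDerivAt_pow (j + 1) x).mul (hd_iter hs j x)
    have h4 := (hd x hx).unique h3
    rw [div_eq_iff hx0] at h4
    rw [h4]
    push_cast
    ring

end

theorem hdF {f : ℝ → ℝ} {g x : ℝ} (hx : x ≠ 0) (h : HasDerivAt f (g / x) x) :
    HasDerivAt (fun y => y ^ 2 * f y) ((2 * (x ^ 2 * f x) + x ^ 2 * g) / x) x := by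
  have := (hasDerivAt_pow 2 x).mul h
  refine HasDerivAt.congr_deriv this ?_
  field_simp
  push_cast
  ring

theorem bounds (hN : FarNum) : Bounds := by
  intro ρ a c σ hρ hc hI hnear hk
  have hs := hI.smooth
  have hc0 : 7 / 10 ≤ c := by
    have := (abs_le.1 hc).1
    unfold cc0 at this
    norm_num at this ⊢
    linarith
  have hcne : c ≠ 0 := by positivity
  -- pointwise far field bounds
  have far : ∀ x, 64 ≤ x → |x ^ 4 * (Y0 σ x - yf0 c (1 / x ^ 2))| ≤ 9000 ∧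
      |x ^ 2 * (Y1 σ x - yf1 c (1 / x ^ 2))| ≤ 63000 ∧
      |x ^ 2 * (Y2 σ x - yf2 c (1 / x ^ 2))| ≤ 1089000 ∧
      7 / 10 ≤ Y0 σ x ∧ Y0 σ x ≤ 9 / 10 := by
    intro x hx
    obtain ⟨w, hw, rfl⟩ := exists_cube hx
    obtain ⟨b0, b1, b2⟩ := hk w hw
    replace b0 := abs_le_of_cmul (by norm_num) b0
    replace b1 := abs_le_of_cmul (by norm_num) b1
    replace b2 := abs_le_of_cmul (by norm_num) b2
    have hw1 : 1 ≤ w := by linarith
    have e6 : (w ^ 3) ^ 2 = w ^ 6 := by ring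
    have e12 : (w ^ 3) ^ 4 = w ^ 12 := by ring
    rw [e6, e12]
    change |w ^ 12 * h0 σ c w| ≤ _ ∧ |w ^ 6 * h1 σ c w| ≤ _ ∧ |w ^ 6 * h2 σ c w| ≤ _ ∧ _
    have a0 : |w ^ 12 * h0 σ c w| ≤ 9000 := b0
    have a0' : |w ^ 6 * h0 σ c w| ≤ 9000 := abs_pow_mul_le hw1 (by norm_num) b0
    have a1 : |w ^ 6 * (h1 σ c w + 4 * h0 σ c w)| ≤ 9000 := abs_pow_mul_le hw1 (by norm_num) b1
    have a2 : |w ^ 6 * (h2 σ c w + 8 * h1 σ c w + 16 * h0 σ c w)| ≤ 9000 :=
      abs_pow_mul_le hw1 (by norm_num) b2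
    have a1' : |w ^ 6 * h1 σ c w| ≤ 63000 := by
      rw [abs_le] at a0' a1 ⊢
      constructor <;> nlinarith [a0'.1, a0'.2, a1.1, a1.2]
    have a2' : |w ^ 6 * h2 σ c w| ≤ 1089000 := by
      rw [abs_le] at a0' a1' a2 ⊢
      constructor <;> nlinarith [a0'.1, a0'.2, a1'.1, a1'.2, a2.1, a2.2]
    have hw6 : (4096 : ℝ) ≤ w ^ 6 := by
      have := pow_le_pow_left₀ (by norm_num) hw 6
      norm_num at this
      exact this
    have hw12 : (16777216 : ℝ) ≤ w ^ 12 := by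
      have := pow_le_pow_left₀ (by norm_num) hw 12
      norm_num at this
      exact this
    obtain ⟨-, l1, l2⟩ := hN c (1 / w ^ 6) hc (by positivity)
      (one_div_le_one_div_of_le (by norm_num) hw6)
    have a3 : |h0 σ c w| ≤ 1 / 1000 := by
      rw [abs_mul, abs_of_nonneg (by positivity : 0 ≤ w ^ 12)] at a0
      nlinarith [abs_nonneg (h0 σ c w)]
    rw [abs_le] at a3
    unfold h0 at a3
    exact ⟨a0, a1', a2', by linarith [a3.1], by linarith [a3.2]⟩
  have pos : ∀ x, 0 ≤ x → 1 / 18 ≤ 1 - x * σ x := by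
    intro x hx
    rcases le_total x 64 with h | h
    · exact hnear x ⟨hx, h⟩
    · have := (far x h).2.2.2.1
      unfold Y0 at this
      linarith
  have hY : ∀ x, 64 < x → 7 / 10 ≤ Y0 σ x := fun x hx => (far x hx.le).2.2.2.1
  have z := bd_z
  -- the chain `Y0, Y1, Y2, Y3`
  set Y3 : ℝ → ℝ := fun x => -12 * Y2 σ x - 29 * Y1 σ x + 42 * (Y0 σ x - 1) -
    x ^ 2 * ((1 / c - 1 / Y0 σ x) / 2) with hY3
  have d0 : ∀ x : ℝ, 64 < x → HasDerivAt (Y0 σ) (Y1 σ x / x) x :=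
    fun x hx => hdY0 hs (by positivity)
  have d1 : ∀ x : ℝ, 64 < x → HasDerivAt (Y1 σ) (Y2 σ x / x) x :=
    fun x hx => hdY1 hs (by positivity)
  have d2 : ∀ x : ℝ, 64 < x → HasDerivAt (Y2 σ) (Y3 x / x) x := by
    intro x hx
    have h := hI.ode x
    have h' := hY x hx
    rw [hρ _ (by unfold Y0 at h'; linarith)] at h
    exact hdY2 hs (by positivity) h
  -- order zero bounds
  have bE : Bd 0 (fun x => x ^ 2 * (x ^ 2 * (Y0 σ x - c) - cc1 c)) := by
    have h1 : Bd 0 (fun x => x ^ 4 * (Y0 σ x - yf0 c (1 / x ^ 2))) :=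
      ⟨9000, fun x hx => (far x hx.le).1⟩
    refine (h1.add ((Bd.const 0 (cc2 c)).add ((z 0).mul ((Bd.const 0 cc3).add ((z 0).mul
      ((Bd.const 0 cc4).add ((z 0).cmul cc5))))))).congr fun x hx => ?_
    have hx0 : x ≠ 0 := by positivity
    unfold yf0
    field_simp
    ring
  have bF0 : Bd 0 (fun x => x ^ 2 * (Y0 σ x - c)) := by
    refine ((Bd.const 0 (cc1 c)).add ((z 0).mul bE)).congr fun x hx => ?_
    have hx0 : x ≠ 0 := by positivity
    field_simp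
    ring
  have bF1 : Bd 0 (fun x => x ^ 2 * Y1 σ x) := by
    have h1 : Bd 0 (fun x => x ^ 2 * (Y1 σ x - yf1 c (1 / x ^ 2))) :=
      ⟨63000, fun x hx => (far x hx.le).2.1⟩
    refine (h1.add ((Bd.const 0 (-2 * cc1 c)).add ((z 0).mul ((Bd.const 0 (-4 * cc2 c)).add
      ((z 0).mul ((Bd.const 0 (-6 * cc3)).add ((z 0).mul ((Bd.const 0 (-8 * cc4)).add
      ((z 0).cmul (-10 * cc5)))))))))).congr fun x hx => ?_
    have hx0 : x ≠ 0 := by positivity
    unfold yf1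
    field_simp
    ring
  have bF2 : Bd 0 (fun x => x ^ 2 * Y2 σ x) := by
    have h1 : Bd 0 (fun x => x ^ 2 * (Y2 σ x - yf2 c (1 / x ^ 2))) :=
      ⟨1089000, fun x hx => (far x hx.le).2.2.1⟩
    refine (h1.add ((Bd.const 0 (4 * cc1 c)).add ((z 0).mul ((Bd.const 0 (16 * cc2 c)).add
      ((z 0).mul ((Bd.const 0 (36 * cc3)).add ((z 0).mul ((Bd.const 0 (64 * cc4)).add
      ((z 0).cmul (100 * cc5)))))))))).congr fun x hx => ?_
    have hx0 : x ≠ 0 := by positivity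
    unfold yf2
    field_simp
    ring
  have bY : Bd 0 (Y0 σ) := ⟨1, fun x hx => by
    obtain ⟨-, -, -, l1, l2⟩ := far x hx.le
    rw [abs_le]; constructor <;> linarith⟩
  have bF3 : Bd 0 (fun x => x ^ 2 * Y3 x) := by
    have hi := Bd.inv (by norm_num) hY bY
    refine (((bF2.cmul (-12)).add (bF1.cmul (-29))).add ((hi.cmul (1 / (2 * c))).mul
      (((bF0.cmul (84 * c)).mul (bY.add (Bd.const 0 (c - 1)))).add (bE.cmul (-1))))).congr
      fun x hx => ?_
    have hy0 : Y0 σ x ≠ 0 := by have := hY x hx; positivity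
    simp only [hY3]
    unfold cc1
    field_simp
    ring
  -- `F0` has three bounded `D`-derivatives
  have e0 : ∀ x : ℝ, 64 < x → HasDerivAt (fun y => y ^ 2 * (Y0 σ y - c))
      ((2 * (x ^ 2 * (Y0 σ x - c)) + x ^ 2 * Y1 σ x) / x) x :=
    fun x hx => hdF (by positivity) ((d0 x hx).sub_const c)
  have e1 : ∀ x : ℝ, 64 < x → HasDerivAt (fun y => y ^ 2 * Y1 σ y)
      ((2 * (x ^ 2 * Y1 σ x) + x ^ 2 * Y2 σ x) / x) x :=
    fun x hx => hdF (by positivity) (d1 x hx)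
  have e2 : ∀ x : ℝ, 64 < x → HasDerivAt (fun y => y ^ 2 * Y2 σ y)
      ((2 * (x ^ 2 * Y2 σ x) + x ^ 2 * Y3 x) / x) x :=
    fun x hx => hdF (by positivity) (d2 x hx)
  have f21 := bF2.step e2 ((bF2.cmul 2).add bF3)
  have f11 := bF1.step e1 ((bF1.cmul 2).add bF2)
  have f12 := bF1.step e1 ((f11.cmul 2).add f21)
  have f01 := bF0.step e0 ((bF0.cmul 2).add bF1)
  have f02 := bF0.step e0 ((f01.cmul 2).add f11)
  have f03 := bF0.step e0 ((f02.cmul 2).add f12)
  have y03 : Bd 3 (Y0 σ) := by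
    refine ((Bd.const 3 c).add ((z 3).mul f03)).congr fun x hx => ?_
    have hx0 : x ≠ 0 := by positivity
    field_simp
    ring
  have y10 : Bd 0 (Y1 σ) := by
    refine ((z 0).mul bF1).congr fun x hx => ?_
    have hx0 : x ≠ 0 := by positivity
    field_simp
  have y20 : Bd 0 (Y2 σ) := by
    refine ((z 0).mul bF2).congr fun x hx => ?_
    have hx0 : x ≠ 0 := by positivity
    field_simp
  have bG : Bd 3 (fun x => x ^ 2 * ((1 / c - 1 / Y0 σ x) / 2)) := by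
    refine ((f03.mul (Bd.inv (by norm_num) hY y03)).cmul (1 / (2 * c))).congr fun x hx => ?_
    have hy0 : Y0 σ x ≠ 0 := by have := hY x hx; positivity
    field_simp
  have chain : ∀ m, m ≤ 4 → Bd m (Y2 σ) ∧ Bd (m + 1) (Y1 σ) ∧ Bd (m + 2) (Y0 σ) := by
    intro m
    induction m with
    | zero =>
      intro _
      exact ⟨y20, y10.step d1 y20, bY.step d0 (y10.step d1 y20)⟩
    | succ m ih =>
      intro hm
      obtain ⟨i2, i1, i0⟩ := ih (by omega)
      have i3 : Bd m Y3 := by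
        refine ((((i2.cmul (-12)).add (i1.pred.cmul (-29))).add
          ((i0.pred.pred.add (Bd.const m (-1))).cmul 42)).add
          ((bG.mono (by omega : m ≤ 3)).cmul (-1))).congr fun x _ => ?_
        simp only [hY3]
        ring
      have j2 := y20.step d2 i3
      have j1 := y10.step d1 j2
      exact ⟨j2, j1, bY.step d0 j1⟩
  have y6 : Bd 6 (Y0 σ) := (chain 4 le_rfl).2.2
  refine ⟨hs, ⟨1 / 18, by norm_num, pos⟩, fun x hx => ?_, fun j hj => ?_, ⟨64, by norm_num, ?_⟩⟩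
  · have hcY : Continuous fun y => 1 - y * σ y :=
      continuous_const.sub (continuous_id.mul hs.continuous)
    have hev : ∀ᶠ y in 𝓝 x, (1 : ℝ) / 20 < 1 - y * σ y :=
      hcY.continuousAt.eventually (lt_mem_nhds (by have := pos x hx; linarith))
    have hde : deriv (Mop 7 σ) =ᶠ[𝓝 x] fun y => (1 / c - (1 - y * σ y)⁻¹) / 2 := by
      filter_upwards [hev] with y hy
      rw [(hI.ode y).deriv, hρ _ hy.le, one_div (1 - y * σ y)]
    have hy0 : 1 - x * σ x ≠ 0 := by have := pos x hx; positivity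
    have h1 := (((((hasDerivAt_id x).mul (hd0 hs x)).const_sub 1).inv hy0).const_sub
      (1 / c)).div_const 2
    have h2 : Lop 7 σ x = _ := (h1.congr_of_eventuallyEq hde).deriv
    rw [h2]
    simp only [id, Pi.mul_apply]
    generalize 1 - x * σ x = y at hy0
    field_simp
  · obtain ⟨C, hC⟩ := (bd_iter hs y6 j (6 - j) (by omega)).zero
    have hcj : Continuous fun x : ℝ => x ^ (j + 1) * iteratedDeriv j σ x :=
      (continuous_pow _).mul (hs.continuous_iteratedDeriv j (by exact_mod_cast le_top))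
    obtain ⟨D, hD⟩ := (isCompact_Icc (a := (0 : ℝ)) (b := 64)).exists_bound_of_continuousOn
      hcj.continuousOn
    refine ⟨max C D, fun x hx => ?_⟩
    have e : x ^ (j + 1) * |iteratedDeriv j σ x| = |x ^ (j + 1) * iteratedDeriv j σ x| := by
      rw [abs_mul, abs_of_nonneg (by positivity : 0 ≤ x ^ (j + 1))]
    rw [e]
    rcases le_or_gt x 64 with h | h
    · exact (hD x ⟨hx, h⟩).trans (le_max_right _ _)
    · exact (hC x h).trans (le_max_left _ _)
  · intro h0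
    have := (far 64 le_rfl).2.2.2.2
    unfold Y0 at this
    rw [h0] at this
    norm_num at this

end Vale.Agent.N264X.P264Z.S
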