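import Vale.Agent.N264X.S.Data

/-!
# P264, block S: the near field certificate
-/

open Set

namespace Vale.Agent.N264X.P264Z.S

open Vale.Agent.P264Z

theorem i00 : P00.ini = true := by decide +kernel
theorem c00 : P00.chk = true := by decide +kernel
theorem t00 : P00.tr P01 = true := by decide +kernel
theorem c01 : P01.chk = true := by decide +kernel
theorem t01 : P01.tr P02 = true := by decide +kernel
theorem c02 : P02.chk = true := by decide +kernel
theorem t02 : P02.tr P03 = true := by decide +kernel
theorem c03 : P03.chk = true := by decide +kernel
theorem t03 : P03.tr P04 = true := by decide +kernel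
theorem c04 : P04.chk = true := by decide +kernel
theorem t04 : P04.tr P05 = true := by decide +kernel
theorem c05 : P05.chk = true := by decide +kernel
theorem t05 : P05.tr P06 = true := by decide +kernel
theorem c06 : P06.chk = true := by decide +kernel
theorem t06 : P06.tr P07 = true := by decide +kernel
theorem c07 : P07.chk = true := by decide +kernel
theorem t07 : P07.tr P08 = true := by decide +kernel
theorem c08 : P08.chk = true := by decide +kernel
theorem t08 : P08.tr P09 = true := by decide +kernel
theorem c09 : P09.chk = true := by decide +kernel
theorem t09 : P09.tr P10 = true := by decide +kernel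
theorem c10 : P10.chk = true := by decide +kernel
theorem t10 : P10.tr P11 = true := by decide +kernel
theorem c11 : P11.chk = true := by decide +kernel
theorem t11 : P11.tr P12 = true := by decide +kernel
theorem c12 : P12.chk = true := by decide +kernel
theorem t12 : P12.tr P13 = true := by decide +kernel
theorem c13 : P13.chk = true := by decide +kernel
theorem t13 : P13.tr P14 = true := by decide +kernel
theorem c14 : P14.chk = true := by decide +kernel
theorem t14 : P14.tr P15 = true := by decide +kernel
theorem c15 : P15.chk = true := by decide +kernel
theorem t15 : P15.tr P16 = true := by decide +kernel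
theorem c16 : P16.chk = true := by decide +kernel
theorem t16 : P16.tr P17 = true := by decide +kernel
theorem c17 : P17.chk = true := by decide +kernel
theorem t17 : P17.tr P18 = true := by decide +kernel
theorem c18 : P18.chk = true := by decide +kernel
theorem t18 : P18.tr P19 = true := by decide +kernel
theorem c19 : P19.chk = true := by decide +kernel
theorem t19 : P19.tr P20 = true := by decide +kernel
theorem c20 : P20.chk = true := by decide +kernel
theorem t20 : P20.tr P21 = true := by decide +kernel
theorem c21 : P21.chk = true := by decide +kernel
theorem t21 : P21.tr P22 = true := by decide +kernel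
theorem c22 : P22.chk = true := by decide +kernel
theorem t22 : P22.tr P23 = true := by decide +kernel
theorem c23 : P23.chk = true := by decide +kernel
theorem t23 : P23.tr P24 = true := by decide +kernel
theorem c24 : P24.chk = true := by decide +kernel
theorem t24 : P24.tr P25 = true := by decide +kernel
theorem c25 : P25.chk = true := by decide +kernel
theorem t25 : P25.tr P26 = true := by decide +kernel
theorem c26 : P26.chk = true := by decide +kernel
theorem t26 : P26.tr P27 = true := by decide +kernel
theorem c27 : P27.chk = true := by decide +kernel
theorem t27 : P27.tr P28 = true := by decide +kernel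
theorem c28 : P28.chk = true := by decide +kernel
theorem t28 : P28.tr P29 = true := by decide +kernel
theorem c29 : P29.chk = true := by decide +kernel
theorem t29 : P29.tr P30 = true := by decide +kernel
theorem c30 : P30.chk = true := by decide +kernel
theorem t30 : P30.tr P31 = true := by decide +kernel
theorem c31 : P31.chk = true := by decide +kernel
theorem t31 : P31.tr P32 = true := by decide +kernel
theorem c32 : P32.chk = true := by decide +kernel
theorem t32 : P32.tr P33 = true := by decide +kernel
theorem c33 : P33.chk = true := by decide +kernel
theorem t33 : P33.tr P34 = true := by decide +kernel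
theorem c34 : P34.chk = true := by decide +kernel

theorem near {ρ σ : ℝ → ℝ} {α k : ℝ} (hρ : Rho ρ) (hσ : IVP ρ (a0 + α) (K0 + k) σ)
    (hα : |α| ≤ AA) (hk : |k| ≤ BB) :
    P34.Out σ α k ∧ ∀ x ∈ Icc (0 : ℝ) P34.xr, 1 / 18 ≤ 1 - x * σ x := by
  have g00 := first hσ hα hk P00 i00
  have g01 := next hρ hσ hα hk c00 t00 g00
  have g02 := next hρ hσ hα hk c01 t01 g01
  have g03 := next hρ hσ hα hk c02 t02 g02
  have g04 := next hρ hσ hα hk c03 t03 g03
  have g05 := next hρ hσ hα hk c04 t04 g04
  have g06 := next hρ hσ hα hk c05 t05 g05
  have g07 := next hρ hσ hα hk c06 t06 g06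
  have g08 := next hρ hσ hα hk c07 t07 g07
  have g09 := next hρ hσ hα hk c08 t08 g08
  have g10 := next hρ hσ hα hk c09 t09 g09
  have g11 := next hρ hσ hα hk c10 t10 g10
  have g12 := next hρ hσ hα hk c11 t11 g11
  have g13 := next hρ hσ hα hk c12 t12 g12
  have g14 := next hρ hσ hα hk c13 t13 g13
  have g15 := next hρ hσ hα hk c14 t14 g14
  have g16 := next hρ hσ hα hk c15 t15 g15
  have g17 := next hρ hσ hα hk c16 t16 g16
  have g18 := next hρ hσ hα hk c17 t17 g17
  have g19 := next hρ hσ hα hk c18 t18 g18
  have g20 := next hρ hσ hα hk c19 t19 g19
  have g21 := next hρ hσ hα hk c20 t20 g20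
  have g22 := next hρ hσ hα hk c21 t21 g21
  have g23 := next hρ hσ hα hk c22 t22 g22
  have g24 := next hρ hσ hα hk c23 t23 g23
  have g25 := next hρ hσ hα hk c24 t24 g24
  have g26 := next hρ hσ hα hk c25 t25 g25
  have g27 := next hρ hσ hα hk c26 t26 g26
  have g28 := next hρ hσ hα hk c27 t27 g27
  have g29 := next hρ hσ hα hk c28 t28 g28
  have g30 := next hρ hσ hα hk c29 t29 g29
  have g31 := next hρ hσ hα hk c30 t30 g30
  have g32 := next hρ hσ hα hk c31 t31 g31
  have g33 := next hρ hσ hα hk c32 t32 g32
  have g34 := next hρ hσ hα hk c33 t33 g33
  exact last hρ hσ hα hk P34 c34 g34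

end Vale.Agent.N264X.P264Z.S
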