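import Mathlib.Analysis.Calculus.MeanValue
import Mathlib.Analysis.Calculus.Deriv.Pow
import Mathlib.Analysis.Calculus.Deriv.Mul
import Mathlib.Algebra.Order.Ring.Abs

/-!
# P264, block S: the a priori bound on one piece
-/

open Set

namespace Vale.Agent.N264X.P264Z.S

/-- `∫_a^x s^6 ds` -/
noncomputable def bb1 (a x : ℝ) : ℝ := (x ^ 7 - a ^ 7) / 7
/-- `∫_a^x (x - s) s^6 ds` -/
noncomputable def bb0 (a x : ℝ) : ℝ := (x ^ 8 - a ^ 8) / 56 - a ^ 7 * (x - a) / 7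

theorem fence {f f' B B' : ℝ → ℝ} {a b : ℝ} (hf : ∀ x, HasDerivAt f (f' x) x)
    (hB : ∀ x, HasDerivAt B (B' x) x) (ha : |f a| ≤ B a) (bound : ∀ x ∈ Ico a b, |f' x| ≤ B' x) :
    ∀ x ∈ Icc a b, |f x| ≤ B x := fun _ hx =>
  image_norm_le_of_norm_deriv_right_le_deriv_boundary (f := f) (f' := f')
    (fun y _ => (hf y).continuousAt.continuousWithinAt) (fun y _ => (hf y).hasDerivWithinAt)
    ha hB bound hx

section

variable {a b m κ L z0 : ℝ} {e0 e1 e2 Z Z' : ℝ → ℝ}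

theorem psi_bounds (ha : 0 ≤ a) (hm : 0 ≤ m)
    (d0 : ∀ x, HasDerivAt e0 (e1 x) x) (d1 : ∀ x, HasDerivAt e1 (e2 x) x)
    (hZ : ∀ x, Z x = x ^ 2 * e2 x + 16 * x * e1 x + 56 * e0 x)
    (h0 : a = 0 ∨ (e0 a = 0 ∧ e1 a = 0)) {t : ℝ} (hb : ∀ x ∈ Ico a t, |Z x| ≤ m) :
    ∀ x ∈ Icc a t, |8 * x ^ 7 * e0 x + x ^ 8 * e1 x| ≤ m * bb1 a x ∧
      |x ^ 8 * e0 x| ≤ m * bb0 a x ∧ |x ^ 8 * e0 x| ≤ m * x ^ 6 * (x - a) ^ 2 / 2 := by
  have D1 : ∀ x, HasDerivAt (fun x => 8 * x ^ 7 * e0 x + x ^ 8 * e1 x) (x ^ 6 * Z x) x := by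
    intro x
    have h := ((((hasDerivAt_pow 7 x).const_mul 8).fun_mul (d0 x)).fun_add
      ((hasDerivAt_pow 8 x).fun_mul (d1 x)))
    refine h.congr_deriv ?_
    rw [hZ x]
    push_cast
    ring
  have D0 : ∀ x, HasDerivAt (fun x => x ^ 8 * e0 x) (8 * x ^ 7 * e0 x + x ^ 8 * e1 x) x := by
    intro x
    have h := (hasDerivAt_pow 8 x).fun_mul (d0 x)
    refine h.congr_deriv ?_
    push_cast
    ring
  have DB1 : ∀ x, HasDerivAt (fun x => m * bb1 a x) (m * x ^ 6) x := by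
    intro x
    have h := (((hasDerivAt_pow 7 x).sub_const (a ^ 7)).div_const 7).const_mul m
    refine h.congr_deriv ?_
    push_cast
    ring
  have DB0 : ∀ x, HasDerivAt (fun x => m * bb0 a x) (m * bb1 a x) x := by
    intro x
    have h := ((((hasDerivAt_pow 8 x).sub_const (a ^ 8)).div_const 56).fun_sub
      ((((hasDerivAt_id' x).sub_const a).const_mul (a ^ 7)).div_const 7)).const_mul m
    refine h.congr_deriv ?_
    unfold bb1
    push_cast
    ring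
  have i1 : 8 * a ^ 7 * e0 a + a ^ 8 * e1 a = 0 := by
    rcases h0 with h | h
    · rw [h]; ring
    · rw [h.1, h.2]; ring
  have i0 : a ^ 8 * e0 a = 0 := by
    rcases h0 with h | h
    · rw [h]; ring
    · rw [h.1]; ring
  have H1 : ∀ x ∈ Icc a t, |8 * x ^ 7 * e0 x + x ^ 8 * e1 x| ≤ m * bb1 a x := by
    refine fence D1 DB1 (by rw [i1]; simp [bb1]) fun x hx => ?_
    have hx0 : 0 ≤ x := ha.trans hx.1
    rw [abs_mul, abs_of_nonneg (pow_nonneg hx0 6), mul_comm]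
    exact mul_le_mul_of_nonneg_right (hb x hx) (pow_nonneg hx0 6)
  have H0 : ∀ x ∈ Icc a t, |x ^ 8 * e0 x| ≤ m * bb0 a x :=
    fence D0 DB0 (by rw [i0]; simp [bb0]) fun x hx => H1 x (Ico_subset_Icc_self hx)
  intro x hx
  refine ⟨H1 x hx, H0 x hx, ?_⟩
  have DB : ∀ s, HasDerivAt (fun s => m * x ^ 6 * (s - a) ^ 2 / 2) (m * x ^ 6 * (s - a)) s := by
    intro s
    have h := ((((hasDerivAt_id' s).sub_const a).fun_pow 2).const_mul (m * x ^ 6)).div_const 2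
    refine h.congr_deriv ?_
    push_cast
    ring
  refine fence (b := x) D0 DB (by rw [i0]; simp) (fun s hs => ?_) x ⟨hx.1, le_rfl⟩
  refine (H1 s ⟨hs.1, hs.2.le.trans hx.2⟩).trans ?_
  have hs0 : 0 ≤ s := ha.trans hs.1
  have h1 := abs_pow_sub_pow_le s a 7
  rw [abs_of_nonneg hs0, abs_of_nonneg ha, max_eq_left hs.1, abs_of_nonneg (sub_nonneg.2 hs.1)] at h1
  have h2 : s ^ 6 ≤ x ^ 6 := pow_le_pow_left₀ hs0 hs.2.le 6
  have h3 : s ^ 7 - a ^ 7 ≤ (s - a) * 7 * x ^ 6 := by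
    refine (le_abs_self _).trans (h1.trans ?_)
    push_cast
    exact mul_le_mul_of_nonneg_left h2 (by nlinarith [hs.1])
  unfold bb1
  rw [mul_assoc]
  refine mul_le_mul_of_nonneg_left ?_ hm
  linarith

theorem loop (ha : 0 ≤ a) (hab : a < b)
    (d0 : ∀ x, HasDerivAt e0 (e1 x) x) (d1 : ∀ x, HasDerivAt e1 (e2 x) x)
    (dZ : ∀ x, HasDerivAt Z (Z' x) x)
    (hZ : ∀ x, Z x = x ^ 2 * e2 x + 16 * x * e1 x + 56 * e0 x)
    (h0 : a = 0 ∨ (e0 a = 0 ∧ e1 a = 0)) (hz : |Z a| ≤ z0)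
    (hκ : min (b / 56) ((b - a) ^ 2 / (2 * b)) ≤ κ)
    (hL : ∀ x ∈ Icc a b, x * |e0 x| ≤ κ * m → |Z' x| ≤ L) (hL0 : 0 ≤ L)
    (hm : z0 + (b - a) * L < m) :
    (∀ x ∈ Icc a b, x * |e0 x| ≤ κ * m) ∧ |Z b| ≤ m ∧
      |8 * b ^ 7 * e0 b + b ^ 8 * e1 b| ≤ m * bb1 a b ∧ |b ^ 8 * e0 b| ≤ m * bb0 a b := by
  have hz0 : 0 ≤ z0 := (abs_nonneg _).trans hz
  have hm0 : 0 ≤ m := by nlinarith
  have hb0 : 0 < b := ha.trans_lt hab
  have key : ∀ t ∈ Icc a b, (∀ x ∈ Ico a t, |Z x| ≤ m) →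
      (∀ x ∈ Icc a t, x * |e0 x| ≤ κ * m) ∧ |Z t| < m := by
    intro t ht hb
    have P := psi_bounds ha hm0 d0 d1 hZ h0 hb
    have H : ∀ x ∈ Icc a t, x * |e0 x| ≤ κ * m := by
      intro x hx
      have hκ0 : 0 ≤ κ := le_trans (le_min (by positivity) (by positivity)) hκ
      rcases (ha.trans hx.1).eq_or_lt with h | hx0
      · rw [← h, zero_mul]; positivity
      have hxb : x ≤ b := hx.2.trans ht.2
      obtain ⟨-, p0, p1⟩ := P x hx
      rw [abs_mul, abs_of_pos (pow_pos hx0 8)] at p0 p1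
      refine le_trans ?_ (mul_le_mul_of_nonneg_right hκ hm0)
      rw [min_mul_of_nonneg _ _ hm0]
      refine le_min ?_ ?_
      · have q : bb0 a x ≤ x ^ 8 / 56 := by
          unfold bb0
          have : 0 ≤ a ^ 7 * (x - a) := mul_nonneg (pow_nonneg ha 7) (sub_nonneg.2 hx.1)
          have : 0 ≤ a ^ 8 := pow_nonneg ha 8
          linarith
        have q2 : x ^ 8 * |e0 x| ≤ x ^ 8 * (m / 56) := by
          refine p0.trans ((mul_le_mul_of_nonneg_left q hm0).trans (le_of_eq ?_))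
          ring
        have q3 := le_of_mul_le_mul_left q2 (pow_pos hx0 8)
        calc x * |e0 x| ≤ b * (m / 56) := mul_le_mul hxb q3 (abs_nonneg _) hb0.le
          _ = b / 56 * m := by ring
      · have q2 : x ^ 6 * (x ^ 2 * |e0 x|) ≤ x ^ 6 * (m * (x - a) ^ 2 / 2) := by
          calc x ^ 6 * (x ^ 2 * |e0 x|) = x ^ 8 * |e0 x| := by ring
            _ ≤ _ := p1
            _ = _ := by ring
        have q3 := le_of_mul_le_mul_left q2 (pow_pos hx0 6)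
        have q4 : b * (x - a) ^ 2 ≤ x * (b - a) ^ 2 := by
          have u1 : 0 ≤ x - a := sub_nonneg.2 hx.1
          have u2 : x - a ≤ b - a := by linarith
          have u3 : (x - a) ^ 2 ≤ (b - a) ^ 2 := pow_le_pow_left₀ u1 u2 2
          have u4 : (b - a) * (x - a) ^ 2 ≤ (x - a) * (b - a) ^ 2 := by
            nlinarith [mul_nonneg (mul_nonneg u1 (u1.trans u2)) (sub_nonneg.2 u2)]
          nlinarith [mul_le_mul_of_nonneg_left u3 ha]
        rw [div_mul_eq_mul_div, le_div_iff₀ (by positivity)]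
        have q5 : x * (x * |e0 x| * (2 * b)) ≤ x * ((b - a) ^ 2 * m) := by
          nlinarith [mul_le_mul_of_nonneg_left q3 hb0.le, mul_le_mul_of_nonneg_left q4 hm0]
        exact le_of_mul_le_mul_left q5 hx0
    refine ⟨H, ?_⟩
    have DB : ∀ s, HasDerivAt (fun s => z0 + (s - a) * L) L s := by
      intro s
      have h := (((hasDerivAt_id' s).sub_const a).mul_const L).const_add z0
      rwa [one_mul] at h
    have F := fence (b := t) dZ DB (by simpa using hz)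
      (fun x hx => hL x ⟨hx.1, hx.2.le.trans ht.2⟩ (H x (Ico_subset_Icc_self hx))) t ⟨ht.1, le_rfl⟩
    have : (t - a) * L ≤ (b - a) * L := mul_le_mul_of_nonneg_right (by linarith [ht.2]) hL0
    linarith
  have all : ∀ x ∈ Icc a b, |Z x| < m := by
    by_contra hcon
    push Not at hcon
    have hc : Continuous fun x => |Z x| :=
      (continuous_iff_continuousAt.2 fun x => (dZ x).continuousAt).abs
    have hcl : IsCompact (Icc a b ∩ {x | m ≤ |Z x|}) :=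
      isCompact_Icc.inter_right (isClosed_le continuous_const hc)
    obtain ⟨t, ht, hmin⟩ := hcl.exists_isLeast (by
      obtain ⟨x, hx, h⟩ := hcon
      exact ⟨x, hx, h⟩)
    have := (key t ht.1 fun x hx => by
      by_contra h
      push Not at h
      exact absurd (hmin ⟨⟨hx.1, hx.2.le.trans ht.1.2⟩, h.le⟩) (not_le.2 hx.2)).2
    exact absurd ht.2 (not_le.2 this)
  have hb : ∀ x ∈ Ico a b, |Z x| ≤ m := fun x hx => (all x (Ico_subset_Icc_self hx)).le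
  have P := psi_bounds ha hm0 d0 d1 hZ h0 hb b ⟨hab.le, le_rfl⟩
  exact ⟨(key b ⟨hab.le, le_rfl⟩ hb).1, (all b ⟨hab.le, le_rfl⟩).le, P.1, P.2.1⟩

end

end Vale.Agent.N264X.P264Z.S
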