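import Vale.Agent.N264X.S.Defs
import Vale.Agent.N264X.S.Poly
import Vale.Agent.N264X.S.Loop

/-!
# P264, block S: the checker for one piece of the near field
-/

open scoped ContDiff
open Set

namespace Vale.Agent.N264X.P264Z.S

open Vale.Agent.P264Z

/-- bound for the deviation of the initial value -/
def AA : ℚ := 37 / 10000000
/-- bound for the deviation of the constant -/
def BB : ℚ := 2 / 1000000
/-- the central constant -/
def K0 : ℚ := 1000000000000000 / 881603967426982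
/-- the central initial value -/
def a0 : ℚ := 1370272918860034 / 100000000000000

/-- the data of one piece -/
structure Pc where
  xl : ℚ
  xr : ℚ
  xc : ℚ
  s : List ℚ
  p1 : List ℚ
  p2 : List ℚ
  p3 : List ℚ
  p4 : List ℚ
  m : ℚ
  e1 : ℚ
  e2 : ℚ
  e3 : ℚ
  z0 : ℚ

namespace Pc

variable (P : Pc)

def r : ℚ := max (P.xc - P.xl) (P.xr - P.xc)
def y : List ℚ := padd [1] (psm (-1) (pX P.xc P.s))
def y2 : List ℚ := pmul P.y P.y
def ymin : ℚ := plow P.y P.r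
def res : List ℚ := padd (padd (psm 2 (pmul P.y (pder (pM P.xc P.s)))) (psm (-K0) P.y)) [1]
def nn (p : List ℚ) : List ℚ := padd (psm 2 (pmul (pder (pM P.xc p)) P.y2)) (pX P.xc p)
def r4 : List ℚ := padd (P.nn P.p4) (psm (-1) P.y2)
def g0 : ℚ := pb P.y P.r * pb P.res P.r + (AA + P.e1) * pb (P.nn P.p1) P.r +
  P.e2 * pb (P.nn P.p2) P.r + P.e3 * pb (P.nn P.p3) P.r + BB * pb P.r4 P.r
def kap : ℚ := min (P.xr / 56) ((P.xr - P.xl) ^ 2 / (2 * P.xr))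
def hh : ℚ := (AA + P.e1) * pb (pX P.xc P.p1) P.r + P.e2 * pb (pX P.xc P.p2) P.r +
  P.e3 * pb (pX P.xc P.p3) P.r + BB * pb (pX P.xc P.p4) P.r + P.kap * P.m
def ylow : ℚ := P.ymin - P.hh
def ll : ℚ := (P.kap * P.m + P.g0 + P.hh ^ 2 / P.ylow) / (2 * P.ymin ^ 2)

/-- the check on one piece -/
def chk : Bool :=
  decide (0 ≤ P.xl) && decide (P.xl < P.xr) && decide (0 < P.ymin) && decide (1 / 18 ≤ P.ylow) &&
    decide (0 ≤ P.ll) && decide (P.z0 + (P.xr - P.xl) * P.ll < P.m)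

def b1 : ℚ := (P.xr ^ 7 - P.xl ^ 7) / 7
def b0 : ℚ := (P.xr ^ 8 - P.xl ^ 8) / 56 - P.xl ^ 7 * (P.xr - P.xl) / 7
def err0 : ℚ := P.m * P.b0 / P.xr ^ 8
def err1 : ℚ := P.m * P.b1 / P.xr ^ 8 + 8 * P.err0 / P.xr

/-- the approximate solution, after the operation `F` -/
noncomputable def cmb (F : List ℚ → List ℚ) (c1 c2 c3 k x : ℝ) : ℝ :=
  pe (F P.s) (x - P.xc) + c1 * pe (F P.p1) (x - P.xc) + c2 * pe (F P.p2) (x - P.xc) +
    c3 * pe (F P.p3) (x - P.xc) + k * pe (F P.p4) (x - P.xc)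

theorem hasDerivAt_cmb (F : List ℚ → List ℚ) (c1 c2 c3 k x : ℝ) :
    HasDerivAt (P.cmb F c1 c2 c3 k) (P.cmb (fun l => pder (F l)) c1 c2 c3 k x) x :=
  (((((hasDerivAt_pe_sub _ _ x).fun_add ((hasDerivAt_pe_sub _ _ x).const_mul c1)).fun_add
    ((hasDerivAt_pe_sub _ _ x).const_mul c2)).fun_add
    ((hasDerivAt_pe_sub _ _ x).const_mul c3)).fun_add ((hasDerivAt_pe_sub _ _ x).const_mul k))

/-- the coefficients are in the box -/
def Box (α c1 c2 c3 : ℝ) : Prop := |c1 - α| ≤ P.e1 ∧ |c2| ≤ P.e2 ∧ |c3| ≤ P.e3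

/-- the information at the left end -/
def Inv (σ : ℝ → ℝ) (α k : ℝ) : Prop :=
  ∃ c1 c2 c3 : ℝ, P.Box α c1 c2 c3 ∧
    ((P.xl : ℝ) = 0 ∨ (σ P.xl = P.cmb id c1 c2 c3 k P.xl ∧
      deriv σ P.xl = P.cmb pder c1 c2 c3 k P.xl)) ∧
    |Mop 7 σ P.xl - P.cmb (pM P.xc) c1 c2 c3 k P.xl| ≤ P.z0

/-- the information at the right end -/
def Out (σ : ℝ → ℝ) (α k : ℝ) : Prop :=
  ∃ c1 c2 c3 : ℝ, P.Box α c1 c2 c3 ∧
    |σ P.xr - P.cmb id c1 c2 c3 k P.xr| ≤ P.err0 ∧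
    |deriv σ P.xr - P.cmb pder c1 c2 c3 k P.xr| ≤ P.err1 ∧
    |Mop 7 σ P.xr - P.cmb (pM P.xc) c1 c2 c3 k P.xr| ≤ P.m

end Pc

theorem core {y Y u Zp g ymin Ylow H G : ℝ} (hy : ymin ≤ y) (h0 : 0 < ymin) (hY : Ylow ≤ Y)
    (hYl : 0 < Ylow) (hu : |u| ≤ H) (hg : |g| ≤ G) (hid : 2 * y ^ 2 * Zp = -g - u ^ 2 / Y) :
    |Zp| ≤ (G + H ^ 2 / Ylow) / (2 * ymin ^ 2) := by
  have hY0 : 0 < Y := hYl.trans_le hY
  have h1 : u ^ 2 / Y ≤ H ^ 2 / Ylow :=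
    div_le_div₀ (sq_nonneg _) (sq_le_sq' (abs_le.1 hu).1 (abs_le.1 hu).2) hYl hY
  have h2 : 0 ≤ u ^ 2 / Y := by positivity
  have h3 : |2 * y ^ 2 * Zp| ≤ G + H ^ 2 / Ylow := by
    rw [hid, abs_le]
    constructor <;> linarith [(abs_le.1 hg).1, (abs_le.1 hg).2]
  rw [le_div_iff₀ (by positivity)]
  rw [abs_mul, abs_of_nonneg (by positivity : 0 ≤ 2 * y ^ 2)] at h3
  have h4 : ymin ^ 2 ≤ y ^ 2 := pow_le_pow_left₀ h0.le hy 2
  nlinarith [abs_nonneg Zp]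

theorem abs_mul_le' {a b A B : ℝ} (ha : |a| ≤ A) (hb : |b| ≤ B) : |a * b| ≤ A * B := by
  rw [abs_mul]
  exact mul_le_mul ha hb (abs_nonneg _) ((abs_nonneg _).trans ha)

theorem abs_add_le' {a b A B : ℝ} (ha : |a| ≤ A) (hb : |b| ≤ B) : |a + b| ≤ A + B :=
  (abs_add_le _ _).trans (add_le_add ha hb)

theorem step {ρ σ : ℝ → ℝ} {a α k : ℝ} (hρ : Rho ρ) (hσ : IVP ρ a (K0 + k) σ)
    (hα : |α| ≤ AA) (hk : |k| ≤ BB) (P : Pc) (hc : P.chk = true) (hI : P.Inv σ α k) :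
    P.Out σ α k ∧ ∀ x ∈ Icc (P.xl : ℝ) P.xr, 1 / 18 ≤ 1 - x * σ x := by
  simp only [Pc.chk, Bool.and_eq_true, decide_eq_true_eq] at hc
  obtain ⟨⟨⟨⟨⟨q1, q2⟩, q3⟩, q4⟩, q5⟩, q6⟩ := hc
  obtain ⟨c1, c2, c3, hB, hI1, hI2⟩ := hI
  have hc1 : |c1| ≤ AA + P.e1 := by
    have := abs_add_le' hα hB.1
    rwa [add_sub_cancel] at this
  have s1 : ContDiff ℝ ∞ (deriv σ) := (contDiff_infty_iff_deriv.1 hσ.smooth).2
  have d0 : ∀ x, HasDerivAt (fun x => σ x - P.cmb id c1 c2 c3 k x)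
      (deriv σ x - P.cmb pder c1 c2 c3 k x) x := fun x =>
    ((contDiff_infty_iff_deriv.1 hσ.smooth).1 x).hasDerivAt.fun_sub (P.hasDerivAt_cmb id _ _ _ _ x)
  have d1 : ∀ x, HasDerivAt (fun x => deriv σ x - P.cmb pder c1 c2 c3 k x)
      (deriv (deriv σ) x - P.cmb (fun l => pder (pder l)) c1 c2 c3 k x) x := fun x =>
    ((contDiff_infty_iff_deriv.1 s1).1 x).hasDerivAt.fun_sub (P.hasDerivAt_cmb pder _ _ _ _ x)
  have dZ : ∀ x, HasDerivAt (fun x => Mop 7 σ x - P.cmb (pM P.xc) c1 c2 c3 k x)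
      ((K0 + k - ρ (1 - x * σ x)) / 2 - P.cmb (fun l => pder (pM P.xc l)) c1 c2 c3 k x) x :=
    fun x => (hσ.ode x).fun_sub (P.hasDerivAt_cmb (pM P.xc) _ _ _ _ x)
  have hZ : ∀ x, Mop 7 σ x - P.cmb (pM P.xc) c1 c2 c3 k x =
      x ^ 2 * (deriv (deriv σ) x - P.cmb (fun l => pder (pder l)) c1 c2 c3 k x) +
      16 * x * (deriv σ x - P.cmb pder c1 c2 c3 k x) + 56 * (σ x - P.cmb id c1 c2 c3 k x) := by
    intro x
    simp only [Mop, Pc.cmb, pe_M, id]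
    push_cast
    ring
  have r1 : (0 : ℝ) ≤ P.xl := by exact_mod_cast q1
  have r2 : (P.xl : ℝ) < P.xr := by exact_mod_cast q2
  have r3 : (0 : ℝ) < P.ymin := by exact_mod_cast q3
  have r4 : (1 / 18 : ℝ) ≤ P.ylow := by
    have := (Rat.cast_le (K := ℝ)).2 q4
    push_cast at this
    exact this
  have key : ∀ x ∈ Icc (P.xl : ℝ) P.xr, x * |σ x - P.cmb id c1 c2 c3 k x| ≤ P.kap * P.m →
      P.ylow ≤ 1 - x * σ x ∧
      |(K0 + k - ρ (1 - x * σ x)) / 2 - P.cmb (fun l => pder (pM P.xc l)) c1 c2 c3 k x| ≤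
        P.ll := by
    intro x hx he
    have hx0 : 0 ≤ x := r1.trans hx.1
    have ht : |x - P.xc| ≤ P.r := by
      simp only [Pc.r, Rat.cast_max, Rat.cast_sub]
      rw [abs_le]
      constructor
      · linarith [le_max_left ((P.xc : ℝ) - P.xl) (P.xr - P.xc), hx.1]
      · linarith [le_max_right ((P.xc : ℝ) - P.xl) (P.xr - P.xc), hx.2]
    have he' : |x * (σ x - P.cmb id c1 c2 c3 k x)| ≤ P.kap * P.m := by
      rwa [abs_mul, abs_of_nonneg hx0]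
    have hy : (P.ymin : ℝ) ≤ pe P.y (x - P.xc) := plow_le _ ht
    have hu := abs_add_le' (abs_add_le' (abs_add_le' (abs_add_le'
      (abs_mul_le' hc1 (abs_pe_le (pX P.xc P.p1) ht))
      (abs_mul_le' hB.2.1 (abs_pe_le (pX P.xc P.p2) ht)))
      (abs_mul_le' hB.2.2 (abs_pe_le (pX P.xc P.p3) ht)))
      (abs_mul_le' hk (abs_pe_le (pX P.xc P.p4) ht))) he'
    have hg := abs_add_le' he' (abs_add_le' (abs_add_le' (abs_add_le' (abs_add_le'
      (abs_mul_le' (abs_pe_le P.y ht) (abs_pe_le P.res ht))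
      (abs_mul_le' hc1 (abs_pe_le (P.nn P.p1) ht)))
      (abs_mul_le' hB.2.1 (abs_pe_le (P.nn P.p2) ht)))
      (abs_mul_le' hB.2.2 (abs_pe_le (P.nn P.p3) ht)))
      (abs_mul_le' hk (abs_pe_le P.r4 ht)))
    have ey : pe P.y (x - P.xc) = 1 - x * pe P.s (x - P.xc) := by
      simp only [Pc.y, pe_add, pe_sm, pe_X, pe]
      push_cast
      ring
    have eY : 1 - x * σ x = pe P.y (x - P.xc) - (c1 * pe (pX P.xc P.p1) (x - P.xc) +
        c2 * pe (pX P.xc P.p2) (x - P.xc) + c3 * pe (pX P.xc P.p3) (x - P.xc) +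
        k * pe (pX P.xc P.p4) (x - P.xc) + x * (σ x - P.cmb id c1 c2 c3 k x)) := by
      simp only [ey, pe_X, Pc.cmb, id]
      ring
    have hH : ((P.hh : ℚ) : ℝ) = (AA + P.e1) * (pb (pX P.xc P.p1) P.r : ℚ) +
        P.e2 * (pb (pX P.xc P.p2) P.r : ℚ) + P.e3 * (pb (pX P.xc P.p3) P.r : ℚ) +
        BB * (pb (pX P.xc P.p4) P.r : ℚ) + P.kap * P.m := by
      simp only [Pc.hh]
      push_cast
      ring
    rw [← hH] at hu
    have hY : (P.ylow : ℝ) ≤ 1 - x * σ x := by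
      rw [eY]
      simp only [Pc.ylow, Rat.cast_sub]
      linarith [(abs_le.1 hu).2]
    refine ⟨hY, ?_⟩
    have hY0 : 0 < 1 - x * σ x := by linarith
    rw [hρ _ (by linarith)]
    have := core (Zp := (K0 + k - 1 / (1 - x * σ x)) / 2 -
      P.cmb (fun l => pder (pM P.xc l)) c1 c2 c3 k x) hy r3 hY (by linarith) hu hg (by
        have e2 : c1 * pe (pX P.xc P.p1) (x - P.xc) +
            c2 * pe (pX P.xc P.p2) (x - P.xc) + c3 * pe (pX P.xc P.p3) (x - P.xc) +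
            k * pe (pX P.xc P.p4) (x - P.xc) + x * (σ x - P.cmb id c1 c2 c3 k x) =
            pe P.y (x - P.xc) - (1 - x * σ x) := by linarith
        rw [e2]
        simp only [Pc.res, Pc.nn, Pc.r4, Pc.y2, Pc.cmb, pe_add, pe_sm, pe_mul, pe_X, pe, id]
        have e3 : x * pe P.s (x - P.xc) = 1 - pe P.y (x - P.xc) := by linarith
        generalize pe P.y (x - P.xc) = y at *
        push_cast
        field_simp
        linear_combination (-(1 - x * σ x)) * e3)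
    refine this.trans (le_of_eq ?_)
    simp only [Pc.ll, Pc.g0]
    push_cast
    ring
  have L := loop (κ := P.kap) (m := P.m) (L := P.ll) (z0 := P.z0) r1 r2 d0 d1 dZ hZ
    (by
      rcases hI1 with h | h
      · exact Or.inl h
      · exact Or.inr ⟨sub_eq_zero.2 h.1, sub_eq_zero.2 h.2⟩)
    hI2 (by simp [Pc.kap]) (fun x hx he => (key x hx he).2) (by exact_mod_cast q5)
    (by exact_mod_cast q6)
  obtain ⟨L1, L2, L3, L4⟩ := L
  have hb : (0 : ℝ) < P.xr := r1.trans_lt r2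
  have E0 : |σ P.xr - P.cmb id c1 c2 c3 k P.xr| ≤ P.err0 := by
    simp only [Pc.err0, Pc.b0]
    push_cast
    rw [le_div_iff₀ (by positivity)]
    rw [abs_mul, abs_of_pos (by positivity)] at L4
    unfold bb0 at L4
    linarith
  refine ⟨⟨c1, c2, c3, hB, E0, ?_, L2⟩, fun x hx => r4.trans (key x hx (L1 x hx)).1⟩
  have E1 := abs_add_le' L3 (abs_mul_le' (le_of_eq (abs_neg (8 * (P.xr : ℝ) ^ 7))) E0)
  rw [abs_of_pos (by positivity : (0 : ℝ) < 8 * (P.xr : ℝ) ^ 7)] at E1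
  have e5 : ∀ u v : ℝ, 8 * (P.xr : ℝ) ^ 7 * u + (P.xr : ℝ) ^ 8 * v +
      -(8 * (P.xr : ℝ) ^ 7) * u = (P.xr : ℝ) ^ 8 * v := fun u v => by ring
  rw [e5, abs_mul, abs_of_pos (by positivity)] at E1
  have e6 : ((P.err1 : ℚ) : ℝ) =
      (P.m * bb1 P.xl P.xr + 8 * (P.xr : ℝ) ^ 7 * P.err0) / (P.xr : ℝ) ^ 8 := by
    simp only [Pc.err1, Pc.b1, bb1]
    push_cast
    field_simp
  rw [e6, le_div_iff₀ (by positivity)]
  linarith

end Vale.Agent.N264X.P264Z.S
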