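import Vale.Agent.N264X.S.FamA
import Mathlib.Topology.MetricSpace.Contracting
import Mathlib.Topology.ContinuousMap.Bounded.Normed
import Mathlib.MeasureTheory.Integral.DominatedConvergence

/-!
# P264, block S1: the family of solutions of the modified initial value problem
-/

open scoped ContDiff BoundedContinuousFunction
open Set Filter MeasureTheory Topology Metric

noncomputable section

namespace Vale.Agent.N264X.P264Z.S

open Vale.Agent.P264Z

/-- the right hand side of the equation -/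
def Rhs (ρ : ℝ → ℝ) (K : ℝ) (S : ℝ → ℝ) (s : ℝ) : ℝ := (K - ρ (1 - s * Av w9 S s)) / 2

theorem Av_cont2 {P : Type*} [TopologicalSpace P] {w : ℝ → ℝ} {S : P → ℝ → ℝ} (hw : Continuous w)
    (hS : Continuous fun q : P × ℝ => S q.1 q.2) :
    Continuous fun q : P × ℝ => Av w (S q.1) q.2 :=
  intervalIntegral.continuous_parametric_intervalIntegral_of_continuous'
    (f := fun (q : P × ℝ) t => w t * S q.1 (q.2 * t))
    ((hw.comp continuous_snd).mul (hS.comp (f := fun r : (P × ℝ) × ℝ => (r.1.1, r.1.2 * r.2))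
      (by fun_prop))) 0 1

theorem Rhs_cont2 {P : Type*} [TopologicalSpace P] {ρ : ℝ → ℝ} {K : P → ℝ} {S : P → ℝ → ℝ}
    (hρ : Continuous ρ) (hK : Continuous K) (hS : Continuous fun q : P × ℝ => S q.1 q.2) :
    Continuous fun q : P × ℝ => Rhs ρ (K q.1) (S q.1) q.2 :=
  ((hK.comp continuous_fst).sub (hρ.comp
    (continuous_const.sub (continuous_snd.mul (Av_cont2 w9_cont hS))))).div_const 2

theorem Rhs_cont {ρ : ℝ → ℝ} {K : ℝ} {S : ℝ → ℝ} (hρ : Continuous ρ) (hS : Continuous S) :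
    Continuous (Rhs ρ K S) :=
  (continuous_const.sub (hρ.comp
    (continuous_const.sub (continuous_id.mul (Av_cont w9_cont hS))))).div_const 2

theorem Av_diff {S T : ℝ → ℝ} (hS : Continuous S) (hT : Continuous T) {lam d : ℝ} (hl : 0 ≤ lam)
    (hd : 0 ≤ d) (h : ∀ y, |S y - T y| ≤ d * Real.exp (lam * y ^ 2)) (s : ℝ) :
    |Av w9 S s - Av w9 T s| ≤ d * Real.exp (lam * s ^ 2) := by
  have iS : IntervalIntegrable (fun t => w9 t * S (s * t)) volume 0 1 :=
    (w9_cont.mul (hS.comp (continuous_const.mul continuous_id))).intervalIntegrable _ _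
  have iT : IntervalIntegrable (fun t => w9 t * T (s * t)) volume 0 1 :=
    (w9_cont.mul (hT.comp (continuous_const.mul continuous_id))).intervalIntegrable _ _
  unfold Av
  rw [← intervalIntegral.integral_sub iS iT]
  have := intervalIntegral.norm_integral_le_of_norm_le_const (a := (0 : ℝ)) (b := 1)
    (f := fun t => w9 t * S (s * t) - w9 t * T (s * t)) (C := d * Real.exp (lam * s ^ 2)) ?_
  · simpa using this
  · intro t ht
    rw [uIoc_of_le zero_le_one] at ht
    have h0 := ht.1.le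
    have h1 := ht.2
    have hw : |w9 t| ≤ 1 := by
      unfold w9
      rw [abs_of_nonneg (mul_nonneg (by linarith) (by positivity))]
      exact mul_le_one₀ (by linarith) (by positivity) (pow_le_one₀ h0 h1)
    have he : Real.exp (lam * (s * t) ^ 2) ≤ Real.exp (lam * s ^ 2) := by
      refine Real.exp_le_exp.2 (mul_le_mul_of_nonneg_left ?_ hl)
      rw [mul_pow]
      exact mul_le_of_le_one_right (sq_nonneg s) (pow_le_one₀ h0 h1)
    rw [Real.norm_eq_abs, ← mul_sub, abs_mul]
    calc |w9 t| * |S (s * t) - T (s * t)| ≤ 1 * (d * Real.exp (lam * (s * t) ^ 2)) :=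
          mul_le_mul hw (h _) (abs_nonneg _) zero_le_one
      _ ≤ d * Real.exp (lam * s ^ 2) := by
          rw [one_mul]
          exact mul_le_mul_of_nonneg_left he hd

theorem int_abs_exp {lam : ℝ} (hl : 0 < lam) (x : ℝ) :
    |∫ s in (0 : ℝ)..x, |s| * Real.exp (lam * s ^ 2)| ≤ Real.exp (lam * x ^ 2) / (2 * lam) := by
  have key : ∫ s in (0 : ℝ)..x, s * Real.exp (lam * s ^ 2) =
      Real.exp (lam * x ^ 2) / (2 * lam) - 1 / (2 * lam) := by
    have hg : ∀ s ∈ uIcc (0 : ℝ) x, HasDerivAt (fun s => Real.exp (lam * s ^ 2) / (2 * lam))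
        (s * Real.exp (lam * s ^ 2)) s := by
      intro s _
      have b : HasDerivAt (fun s => Real.exp (lam * s ^ 2) / (2 * lam)) _ s :=
        (((hasDerivAt_pow 2 s).const_mul lam).exp).div_const _
      refine b.congr_deriv ?_
      push_cast
      field_simp
    rw [intervalIntegral.integral_eq_sub_of_hasDerivAt hg
      (Continuous.intervalIntegrable (by fun_prop) _ _)]
    simp
  have h1 : 1 ≤ Real.exp (lam * x ^ 2) := Real.one_le_exp (by positivity)
  have h2 : 1 / (2 * lam) ≤ Real.exp (lam * x ^ 2) / (2 * lam) :=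
    div_le_div_of_nonneg_right h1 (by positivity)
  have h3 : 0 < 1 / (2 * lam) := by positivity
  rcases le_total 0 x with hx | hx
  · rw [intervalIntegral.integral_congr (g := fun s => s * Real.exp (lam * s ^ 2)), key,
      abs_of_nonneg (by linarith)]
    · linarith
    · intro s hs
      rw [uIcc_of_le hx] at hs
      simp only [abs_of_nonneg hs.1]
  · rw [intervalIntegral.integral_congr (g := fun s => -(s * Real.exp (lam * s ^ 2))),
      intervalIntegral.integral_neg, key, abs_neg, abs_of_nonneg (by linarith)]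
    · linarith
    · intro s hs
      rw [uIcc_of_ge hx] at hs
      simp only [abs_of_nonpos hs.2]
      ring

theorem Rhs_diff {ρ : ℝ → ℝ} (hρ : Continuous ρ) {L : ℝ} (hL : 0 ≤ L)
    (hlip : ∀ y z, |ρ y - ρ z| ≤ L * |y - z|) (K : ℝ)
    {S T : ℝ → ℝ} (hS : Continuous S) (hT : Continuous T) {d : ℝ}
    (hd : 0 ≤ d) (h : ∀ y, |S y - T y| ≤ d * Real.exp ((L + 1) * y ^ 2)) (x : ℝ) :
    |(∫ s in (0 : ℝ)..x, Rhs ρ K S s) - ∫ s in (0 : ℝ)..x, Rhs ρ K T s| ≤
      1 / 2 * d * Real.exp ((L + 1) * x ^ 2) := by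
  have hl : 0 < L + 1 := by linarith
  rw [← intervalIntegral.integral_sub ((Rhs_cont hρ hS).intervalIntegrable _ _)
    ((Rhs_cont hρ hT).intervalIntegrable _ _)]
  have hb : ∀ s, ‖Rhs ρ K S s - Rhs ρ K T s‖ ≤
      L * d / 2 * (|s| * Real.exp ((L + 1) * s ^ 2)) := by
    intro s
    have e : Rhs ρ K S s - Rhs ρ K T s =
        (ρ (1 - s * Av w9 T s) - ρ (1 - s * Av w9 S s)) / 2 := by
      unfold Rhs
      ring
    have h1 := hlip (1 - s * Av w9 T s) (1 - s * Av w9 S s)
    have e2 : 1 - s * Av w9 T s - (1 - s * Av w9 S s) = s * (Av w9 S s - Av w9 T s) := by ring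
    rw [e2, abs_mul] at h1
    have h2 := Av_diff hS hT hl.le hd h s
    have h3 : L * (|s| * |Av w9 S s - Av w9 T s|) ≤
        L * (|s| * (d * Real.exp ((L + 1) * s ^ 2))) :=
      mul_le_mul_of_nonneg_left (mul_le_mul_of_nonneg_left h2 (abs_nonneg _)) hL
    rw [e, Real.norm_eq_abs, abs_div, abs_two]
    nlinarith
  have h1 := intervalIntegral.norm_integral_le_abs_of_norm_le (μ := volume) (a := (0 : ℝ)) (b := x)
    (f := fun s => Rhs ρ K S s - Rhs ρ K T s)
    (g := fun s => L * d / 2 * (|s| * Real.exp ((L + 1) * s ^ 2)))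
    (Eventually.of_forall fun s => hb s) (Continuous.intervalIntegrable (by fun_prop) _ _)
  rw [intervalIntegral.integral_const_mul, abs_mul, abs_of_nonneg (by positivity : 0 ≤ L * d / 2),
    Real.norm_eq_abs] at h1
  refine h1.trans ?_
  have h2 := mul_le_mul_of_nonneg_left (int_abs_exp hl x) (by positivity : 0 ≤ L * d / 2)
  refine h2.trans ?_
  have h3 : 0 ≤ d * Real.exp ((L + 1) * x ^ 2) := by positivity
  rw [← mul_div_assoc, div_le_iff₀ (by positivity)]
  nlinarith

theorem exists_fix {P : Type*} [TopologicalSpace P] {ρ : ℝ → ℝ} (hρ : Continuous ρ)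
    (hB : ∀ y, |ρ y| ≤ 40) {L : ℝ} (hL : 0 ≤ L) (hlip : ∀ y z, |ρ y - ρ z| ≤ L * |y - z|)
    {a K : P → ℝ} (ha : Continuous a) (hK : Continuous K) {A : ℝ} (hA0 : 0 ≤ A)
    (hA : ∀ p, |a p| ≤ A) (hKA : ∀ p, |K p| ≤ A) :
    ∃ S : P → ℝ → ℝ, (Continuous fun q : P × ℝ => S q.1 q.2) ∧
      ∀ p x, S p x = a p + ∫ s in (0 : ℝ)..x, Rhs ρ (K p) (S p) s := by
  let U : (P × ℝ →ᵇ ℝ) → P → ℝ → ℝ := fun f p x => Real.exp ((L + 1) * x ^ 2) * f (p, x)
  have hU : ∀ f, Continuous fun q : P × ℝ => U f q.1 q.2 := fun f =>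
    (by fun_prop : Continuous fun q : P × ℝ => Real.exp ((L + 1) * q.2 ^ 2)).mul f.continuous
  have hU1 : ∀ f p, Continuous (U f p) := fun f p =>
    (hU f).comp (f := fun x : ℝ => (p, x)) (by fun_prop)
  let T0 : (P × ℝ →ᵇ ℝ) → P × ℝ → ℝ := fun f q =>
    Real.exp (-((L + 1) * q.2 ^ 2)) * (a q.1 + ∫ s in (0 : ℝ)..q.2, Rhs ρ (K q.1) (U f q.1) s)
  have hT0 : ∀ f, Continuous (T0 f) := fun f =>
    (by fun_prop : Continuous fun q : P × ℝ => Real.exp (-((L + 1) * q.2 ^ 2))).mul
      ((ha.comp continuous_fst).add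
        (intervalIntegral.continuous_parametric_primitive_of_continuous
          (f := fun p s => Rhs ρ (K p) (U f p) s) (Rhs_cont2 hρ hK (hU f))))
  have hbd : ∀ f q, ‖T0 f q‖ ≤ A + (A + 40) / 2 := by
    rintro f ⟨p, x⟩
    have h1 := intervalIntegral.norm_integral_le_of_norm_le_const (a := (0 : ℝ)) (b := x)
      (f := Rhs ρ (K p) (U f p)) (C := (A + 40) / 2) (fun s _ => by
        unfold Rhs
        rw [Real.norm_eq_abs, abs_div, abs_two]
        have := abs_sub (K p) (ρ (1 - s * Av w9 (U f p) s))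
        have := hB (1 - s * Av w9 (U f p) s)
        have := hKA p
        linarith)
    rw [sub_zero, Real.norm_eq_abs] at h1
    have h2 : Real.exp (-((L + 1) * x ^ 2)) ≤ 1 :=
      Real.exp_le_one_iff.2 (by have : 0 ≤ (L + 1) * x ^ 2 := by positivity
                                linarith)
    have h3 : Real.exp (-((L + 1) * x ^ 2)) * |x| ≤ 1 := by
      rw [Real.exp_neg, inv_mul_le_iff₀ (Real.exp_pos _), mul_one]
      have := Real.add_one_le_exp ((L + 1) * x ^ 2)
      have h4 : 0 ≤ L * x ^ 2 := by positivity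
      have h5 : |x| ≤ x ^ 2 + 1 := by
        rw [← sq_abs x]
        nlinarith [sq_nonneg (|x| - 1), abs_nonneg x]
      nlinarith
    have h0 := Real.exp_pos (-((L + 1) * x ^ 2))
    simp only [T0]
    rw [Real.norm_eq_abs, abs_mul, abs_of_pos h0]
    have h4 := (abs_add_le (a p) (∫ s in (0 : ℝ)..x, Rhs ρ (K p) (U f p) s)).trans
      (add_le_add (hA p) h1)
    have h5 := mul_le_mul_of_nonneg_left h4 h0.le
    have h6 : 0 ≤ (A + 40) / 2 := by positivity
    nlinarith
  let T : (P × ℝ →ᵇ ℝ) → (P × ℝ →ᵇ ℝ) := fun f =>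
    BoundedContinuousFunction.ofNormedAddCommGroup (T0 f) (hT0 f) _ (hbd f)
  have hc : ContractingWith (1 / 2) T := by
    refine ⟨by norm_num, LipschitzWith.of_dist_le_mul fun f g => ?_⟩
    refine (BoundedContinuousFunction.dist_le (by positivity)).2 ?_
    rintro ⟨p, x⟩
    have h1 := Rhs_diff hρ hL hlip (K p) (hU1 f p) (hU1 g p) (dist_nonneg (x := f) (y := g))
      (fun y => by
        simp only [U]
        rw [← mul_sub, abs_mul, abs_of_pos (Real.exp_pos _), mul_comm]
        exact mul_le_mul_of_nonneg_right (f.dist_coe_le_dist (g := g) (p, y)) (Real.exp_pos _).le) x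
    change dist (T0 f (p, x)) (T0 g (p, x)) ≤ _
    simp only [T0]
    rw [Real.dist_eq, ← mul_sub, add_sub_add_left_eq_sub, abs_mul, abs_of_pos (Real.exp_pos _),
      Real.exp_neg, inv_mul_le_iff₀ (Real.exp_pos _)]
    refine h1.trans (le_of_eq ?_)
    push_cast
    ring
  refine ⟨U (hc.fixedPoint T), hU _, fun p x => ?_⟩
  have h1 : T0 (hc.fixedPoint T) (p, x) = hc.fixedPoint T (p, x) :=
    congrArg (fun f : P × ℝ →ᵇ ℝ => f (p, x)) hc.fixedPoint_isFixedPt.eq
  have h2 : U (hc.fixedPoint T) p x =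
      Real.exp ((L + 1) * x ^ 2) * T0 (hc.fixedPoint T) (p, x) := by rw [h1]
  rw [h2]
  simp only [T0]
  rw [← mul_assoc, ← Real.exp_add, add_neg_cancel, Real.exp_zero, one_mul]

theorem fix_hasDerivAt {ρ : ℝ → ℝ} (hρ : Continuous ρ) {a K : ℝ} {S : ℝ → ℝ} (hS : Continuous S)
    (h : ∀ x, S x = a + ∫ s in (0 : ℝ)..x, Rhs ρ K S s) (x : ℝ) :
    HasDerivAt S (Rhs ρ K S x) x := by
  have h1 : HasDerivAt (fun x => a + ∫ s in (0 : ℝ)..x, Rhs ρ K S s) (Rhs ρ K S x) x :=
    ((Rhs_cont hρ hS).integral_hasStrictDerivAt 0 x).hasDerivAt.const_add a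
  exact h1.congr_of_eventuallyEq (Eventually.of_forall h)

theorem fix_smooth {ρ : ℝ → ℝ} (hρ : ContDiff ℝ ∞ ρ) {a K : ℝ} {S : ℝ → ℝ} (hS : Continuous S)
    (h : ∀ x, S x = a + ∫ s in (0 : ℝ)..x, Rhs ρ K S s) : ContDiff ℝ ∞ S := by
  have hd := fix_hasDerivAt hρ.continuous hS h
  refine contDiff_infty.2 fun n => ?_
  induction n with
  | zero => exact contDiff_zero.2 hS
  | succ n ih =>
    rw [Nat.cast_succ, contDiff_succ_iff_deriv]
    refine ⟨fun x => (hd x).differentiableAt, by simp, ?_⟩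
    have : deriv S = Rhs ρ K S := funext fun x => (hd x).deriv
    rw [this]
    exact (contDiff_const.sub ((contDiff_infty.1 hρ n).comp
      (contDiff_const.sub (contDiff_id.mul (Av_contDiff n w9_cont ih))))).div_const 2

theorem family : Family := by
  obtain ⟨ρ, hR, hρ, hB, L, hL, hlip⟩ := exists_rho
  refine ⟨ρ, hR, fun a K ha hK => ?_⟩
  let π : (Fin 2 → ℝ) → (Fin 2 → ℝ) := fun p i => max (-1) (min 1 (p i))
  have hπ : Continuous π := by fun_prop
  have hπm : ∀ p, π p ∈ closedBall (0 : Fin 2 → ℝ) 1 := by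
    intro p
    rw [mem_closedBall_zero_iff, pi_norm_le_iff_of_nonneg zero_le_one]
    intro i
    rw [Real.norm_eq_abs, abs_le]
    exact ⟨le_max_left _ _, max_le (by norm_num) (min_le_left _ _)⟩
  have hπe : ∀ p, ‖p‖ ≤ 1 → π p = p := by
    intro p hp
    funext i
    have := (pi_norm_le_iff_of_nonneg zero_le_one).1 hp i
    rw [Real.norm_eq_abs, abs_le] at this
    simp only [π]
    rw [min_eq_right this.2, max_eq_right this.1]
  obtain ⟨A1, hA1⟩ := (isCompact_closedBall (0 : Fin 2 → ℝ) 1).exists_bound_of_continuousOn ha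
  obtain ⟨A2, hA2⟩ := (isCompact_closedBall (0 : Fin 2 → ℝ) 1).exists_bound_of_continuousOn hK
  obtain ⟨S, hS, hfix⟩ := exists_fix hρ.continuous hB hL hlip (a := fun p => a (π p))
    (K := fun p => K (π p)) (ha.comp_continuous hπ hπm) (hK.comp_continuous hπ hπm)
    (A := max 0 (max A1 A2)) (le_max_left _ _)
    (fun p => (hA1 _ (hπm p)).trans ((le_max_left _ _).trans (le_max_right _ _)))
    (fun p => (hA2 _ (hπm p)).trans ((le_max_right _ _).trans (le_max_right _ _)))
  have hS1 : ∀ p, Continuous (S p) := fun p => hS.comp (f := fun x : ℝ => (p, x)) (by fun_prop)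
  have hSs : ∀ p, ContDiff ℝ ∞ (S p) := fun p => fix_smooth hρ (hS1 p) (hfix p)
  have hM : ∀ p, Mop 7 (Av w9 (S p)) = S p := fun p => funext (Mop_Av (hSs p))
  refine ⟨fun p => Av w9 (S p), fun p hp => ⟨Av_smooth w9_cont (hSs p), ?_, fun x => ?_⟩, ?_, ?_, ?_⟩
  · rw [hM, hfix, hπe p hp]
    simp
  · rw [hM]
    have := fix_hasDerivAt hρ.continuous (hS1 p) (hfix p) x
    rw [hπe p hp] at this
    exact this
  · exact (Av_cont2 w9_cont hS).continuousOn
  · have h1 : ContinuousOn (fun q : (Fin 2 → ℝ) × ℝ =>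
        (Av (fun t => t ^ 6) (S q.1) q.2 - 8 * Av w9 (S q.1) q.2) / q.2)
        (closedBall 0 1 ×ˢ Ioi 0) :=
      (((Av_cont2 (continuous_pow 6) hS).sub
        (continuous_const.mul (Av_cont2 w9_cont hS))).continuousOn).div continuous_snd.continuousOn
        fun q hq => ne_of_gt hq.2
    refine h1.congr fun q hq => ?_
    have h2 := deriv_Av (hSs q.1) q.2
    have h3 : q.2 ≠ 0 := ne_of_gt hq.2
    simp only
    rw [eq_div_iff h3]
    linarith
  · simp only [hM]
    exact hS.continuousOn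

end Vale.Agent.N264X.P264Z.S
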