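import Vale.Agent.P264Z.Brouwer

/-!
# P264, block S: the retraction principle of Wazewski
-/

open Set Metric Filter Topology

namespace Vale.Agent.N264X.P264Z.S

open Vale.Agent.P264Z

/-- The first time at which `N p` reaches the level `r` is continuous in `p`, if the level is
crossed at once. -/
theorem exit_time {X : Type*} [TopologicalSpace X] {N : X → ℝ → ℝ} {r w₀ : ℝ}
    (hN : Continuous fun q : X × ℝ => N q.1 (max w₀ q.2))
    (hex : ∀ p, ∃ w, w₀ ≤ w ∧ r ≤ N p w)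
    (hexit : ∀ p w, w₀ ≤ w → (∀ w' ∈ Ico w₀ w, N p w' < r) → r ≤ N p w →
      ∀ b, w < b → ∃ w' ∈ Ico w b, r < N p w') :
    ∃ T : X → ℝ, Continuous T ∧ (∀ p, w₀ ≤ T p ∧ r ≤ N p (T p)) ∧
      ∀ p, r ≤ N p w₀ → T p = w₀ := by
  set A : X → Set ℝ := fun p => {w | w₀ ≤ w ∧ r ≤ N p w} with hA
  have hbdd : ∀ p, BddBelow (A p) := fun p => ⟨w₀, fun w hw => hw.1⟩
  have hcl : ∀ p, IsClosed (A p) := by
    intro p
    have h1 : Continuous fun w : ℝ => N p (max w₀ w) :=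
      hN.comp (continuous_const.prodMk continuous_id)
    have h2 : A p = Ici w₀ ∩ {w | r ≤ N p (max w₀ w)} := by
      ext w
      constructor
      · rintro ⟨h, h'⟩
        exact ⟨h, by simpa [max_eq_right h] using h'⟩
      · rintro ⟨h, h'⟩
        exact ⟨h, by simpa [max_eq_right (show w₀ ≤ w from h)] using h'⟩
    rw [h2]
    exact isClosed_Ici.inter (isClosed_le continuous_const h1)
  have hmem : ∀ p, sInf (A p) ∈ A p := fun p => (hcl p).csInf_mem (hex p) (hbdd p)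
  have hlt : ∀ p, ∀ w' ∈ Ico w₀ (sInf (A p)), N p w' < r := by
    intro p w' hw'
    by_contra h
    exact absurd (csInf_le (hbdd p) (show w' ∈ A p from ⟨hw'.1, not_lt.1 h⟩)) (not_le.2 hw'.2)
  refine ⟨fun p => sInf (A p), ?_, fun p => hmem p, fun p hp => ?_⟩
  · refine continuous_iff_continuousAt.2 fun p₀ => tendsto_order.2 ⟨fun a ha => ?_, fun b hb => ?_⟩
    · have h1 : ∀ᶠ p in 𝓝 p₀, ∀ y ∈ Icc w₀ a, N p (max w₀ y) < r := by
        refine isCompact_Icc.eventually_forall_of_forall_eventually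
          (P := fun p y => N p (max w₀ y) < r) fun y hy => ?_
        refine (hN.tendsto (p₀, y)).eventually (gt_mem_nhds ?_)
        simp only [max_eq_right hy.1]
        exact hlt p₀ y ⟨hy.1, hy.2.trans_lt ha⟩
      filter_upwards [h1] with p hp
      by_contra h
      have h2 := hp _ ⟨(hmem p).1, not_lt.1 h⟩
      rw [max_eq_right (hmem p).1] at h2
      exact absurd (hmem p).2 (not_le.2 h2)
    · obtain ⟨w', hw', hr⟩ := hexit p₀ _ (hmem p₀).1 (hlt p₀) (hmem p₀).2 b hb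
      have hw0 : w₀ ≤ w' := (hmem p₀).1.trans hw'.1
      have h1 : Continuous fun p : X => N p (max w₀ w') :=
        hN.comp (continuous_id.prodMk continuous_const)
      have h2 : ∀ᶠ p in 𝓝 p₀, r < N p (max w₀ w') :=
        (h1.tendsto p₀).eventually (lt_mem_nhds (by simpa [max_eq_right hw0] using hr))
      filter_upwards [h2] with p hp
      rw [max_eq_right hw0] at hp
      exact (csInf_le (hbdd p) (show w' ∈ A p from ⟨hw0, hp.le⟩)).trans_lt hw'.2
  · exact le_antisymm (csInf_le (hbdd p) ⟨le_rfl, hp⟩) (hmem p).1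

/-- The retraction principle. -/
theorem wazewski {E : Type*} [NormedAddCommGroup E] [NormedSpace ℝ E] [FiniteDimensional ℝ E]
    {u : E → ℝ → E} {N : E → ℝ → ℝ} {r w₀ : ℝ}
    (hu : ContinuousOn (fun q : E × ℝ => u q.1 q.2) (closedBall 0 1 ×ˢ Ici w₀))
    (hN : ContinuousOn (fun q : E × ℝ => N q.1 q.2) (closedBall 0 1 ×ˢ Ici w₀))
    (hne : ∀ p w, ‖p‖ ≤ 1 → w₀ ≤ w → r ≤ N p w → u p w ≠ 0)
    (hs : ∀ p, ‖p‖ = 1 → r ≤ N p w₀ ∧ ∀ t ∈ Icc (0 : ℝ) 1, (1 - t) • p + t • u p w₀ ≠ 0)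
    (hexit : ∀ p w, ‖p‖ ≤ 1 → w₀ ≤ w → (∀ w' ∈ Ico w₀ w, N p w' < r) → r ≤ N p w →
      ∀ b, w < b → ∃ w' ∈ Ico w b, r < N p w') :
    ∃ p, ‖p‖ ≤ 1 ∧ ∀ w, w₀ ≤ w → N p w < r := by
  by_contra hcon
  push Not at hcon
  have hb : ∀ p : closedBall (0 : E) 1, ‖(p : E)‖ ≤ 1 := fun p => mem_closedBall_zero_iff.1 p.2
  have hc : Continuous fun q : closedBall (0 : E) 1 × ℝ => ((q.1 : E), max w₀ q.2) := by fun_prop
  obtain ⟨T, hT, hT1, hT2⟩ := exit_time (X := closedBall (0 : E) 1) (N := fun p => N p)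
    (r := r) (w₀ := w₀) (hN.comp_continuous hc fun q => ⟨q.1.2, mem_Ici.2 (le_max_left _ _)⟩)
    (fun p => hcon p (hb p)) (fun p w => hexit p w (hb p))
  classical
  let f : E → E := fun p => if h : p ∈ closedBall (0 : E) 1 then u p (T ⟨p, h⟩) else 0
  have hf : ∀ p : closedBall (0 : E) 1, f p = u p (T p) := fun p => dif_pos p.2
  have hfc : ContinuousOn f (closedBall 0 1) := by
    rw [continuousOn_iff_continuous_domRestrict]
    have h1 : Continuous fun p : closedBall (0 : E) 1 => ((p : E), T p) := by fun_prop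
    have h2 := hu.comp_continuous h1 fun p => ⟨p.2, (hT1 p).1⟩
    refine h2.congr fun p => (hf p).symm
  obtain ⟨p, hp, h0⟩ := exists_zero_of_sphere (E := E) one_pos hfc fun p hp t ht => by
    have hm : p ∈ closedBall (0 : E) 1 := by simpa using hp.le
    have h1 := hf ⟨p, hm⟩
    rw [hT2 ⟨p, hm⟩ (hs p hp).1] at h1
    rw [show f p = u p w₀ from h1]
    exact (hs p hp).2 t ht
  have hm : p ∈ closedBall (0 : E) 1 := by simpa using hp.le
  exact hne p _ hp.le (hT1 ⟨p, hm⟩).1 (hT1 ⟨p, hm⟩).2 ((hf ⟨p, hm⟩).symm.trans h0)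

end Vale.Agent.N264X.P264Z.S
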