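import Vale.Agent.N264X.S.YOde
import Vale.Agent.N264X.S.Cone
import Vale.Agent.N264X.S.Waz

/-!
# P264, block S: the far field trap
-/

open scoped ContDiff
open Set Metric

noncomputable section

namespace Vale.Agent.N264X.P264Z.S

open Vale.Agent.P264Z

theorem hasDerivAt_z {w : ℝ} (hw : w ≠ 0) :
    HasDerivAt (fun w : ℝ => 1 / w ^ 6) (-6 / w * (1 / w ^ 6)) w := by
  have h := (hasDerivAt_const w (1 : ℝ)).div (hasDerivAt_pow 6 w) (pow_ne_zero 6 hw)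
  refine HasDerivAt.congr_deriv h ?_
  push_cast
  field_simp
  ring

/-- derivative of a polynomial of degree five along a curve -/
theorem hasDerivAt_poly5 {z : ℝ → ℝ} {z' w : ℝ} (h : HasDerivAt z z' w) (a₀ a₁ a₂ a₃ a₄ a₅ : ℝ) :
    HasDerivAt (fun w => a₀ + a₁ * z w + a₂ * z w ^ 2 + a₃ * z w ^ 3 + a₄ * z w ^ 4 + a₅ * z w ^ 5)
      ((a₁ + 2 * a₂ * z w + 3 * a₃ * z w ^ 2 + 4 * a₄ * z w ^ 3 + 5 * a₅ * z w ^ 4) * z') w := by
  have h1 := (((((h.const_mul a₁).const_add a₀).add ((h.pow 2).const_mul a₂)).add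
    ((h.pow 3).const_mul a₃)).add ((h.pow 4).const_mul a₄)).add ((h.pow 5).const_mul a₅)
  refine HasDerivAt.congr_deriv h1 ?_
  push_cast
  ring

theorem comp_yf0 {z : ℝ → ℝ} {e w : ℝ} (c : ℝ) (h : HasDerivAt z (-2 * e * z w) w) :
    HasDerivAt (fun w => yf0 c (z w)) (e * yf1 c (z w)) w := by
  refine HasDerivAt.congr_deriv (hasDerivAt_poly5 h c (cc1 c) (cc2 c) cc3 cc4 cc5) ?_
  unfold yf1
  ring

theorem comp_yf1 {z : ℝ → ℝ} {e w : ℝ} (c : ℝ) (h : HasDerivAt z (-2 * e * z w) w) :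
    HasDerivAt (fun w => yf1 c (z w)) (e * yf2 c (z w)) w := by
  have h1 := hasDerivAt_poly5 h 0 (-2 * cc1 c) (-4 * cc2 c) (-6 * cc3) (-8 * cc4) (-10 * cc5)
  refine HasDerivAt.congr_deriv (h1.congr_of_eventuallyEq (.of_forall fun w => ?_)) ?_
  · unfold yf1
    ring
  · unfold yf2
    ring

theorem comp_yf2 {z : ℝ → ℝ} {e w : ℝ} (c : ℝ) (h : HasDerivAt z (-2 * e * z w) w) :
    HasDerivAt (fun w => yf2 c (z w)) (e * yf3 c (z w)) w := by
  have h1 := hasDerivAt_poly5 h 0 (4 * cc1 c) (16 * cc2 c) (36 * cc3) (64 * cc4) (100 * cc5)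
  refine HasDerivAt.congr_deriv (h1.congr_of_eventuallyEq (.of_forall fun w => ?_)) ?_
  · unfold yf2
    ring
  · unfold yf3
    ring

theorem hasDerivAt_z' {w : ℝ} (hw : w ≠ 0) :
    HasDerivAt (fun w : ℝ => 1 / w ^ 6) (-2 * (3 / w) * (1 / w ^ 6)) w :=
  (hasDerivAt_z hw).congr_deriv (by ring)

theorem comp_cube {f : ℝ → ℝ} {g w : ℝ} (hw : w ≠ 0) (h : HasDerivAt f (g / w ^ 3) (w ^ 3)) :
    HasDerivAt (fun w => f (w ^ 3)) (3 / w * g) w := by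
  have h1 := HasDerivAt.comp (h := fun w : ℝ => w ^ 3) w h (hasDerivAt_pow 3 w)
  refine HasDerivAt.congr_deriv h1 ?_
  push_cast
  field_simp

variable {ρ σ : ℝ → ℝ} {a c : ℝ}

theorem hasDerivAt_h0 (h : ContDiff ℝ ∞ σ) (c : ℝ) {w : ℝ} (hw : w ≠ 0) :
    HasDerivAt (h0 σ c) (3 / w * h1 σ c w) w := by
  have h1' : HasDerivAt (h0 σ c) _ w := (comp_cube hw (hasDerivAt_Y0 h (pow_ne_zero 3 hw))).sub
    (comp_yf0 c (hasDerivAt_z' hw))
  refine h1'.congr_deriv ?_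
  unfold h1
  ring

theorem hasDerivAt_h1 (h : ContDiff ℝ ∞ σ) (c : ℝ) {w : ℝ} (hw : w ≠ 0) :
    HasDerivAt (h1 σ c) (3 / w * h2 σ c w) w := by
  have h1' : HasDerivAt (h1 σ c) _ w := (comp_cube hw (hasDerivAt_Y1 h (pow_ne_zero 3 hw))).sub
    (comp_yf1 c (hasDerivAt_z' hw))
  refine h1'.congr_deriv ?_
  unfold h2
  ring

theorem hasDerivAt_h2 {K : ℝ} (h : IVP ρ a K σ) (c : ℝ) {w : ℝ} (hw : w ≠ 0) :
    HasDerivAt (h2 σ c) (3 / w * (Y3 ρ K σ (w ^ 3) - yf3 c (1 / w ^ 6))) w := by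
  have h1' : HasDerivAt (h2 σ c) _ w := (comp_cube hw (hasDerivAt_Y2 h (pow_ne_zero 3 hw))).sub
    (comp_yf2 c (hasDerivAt_z' hw))
  refine h1'.congr_deriv ?_
  ring

/-- the equation for the difference to the far field approximation -/
theorem Y3_sub {x z : ℝ} (hρ : Rho ρ) (hc : c ≠ 0) (hz : x ^ 2 * z = 1) (hY : 1 / 20 ≤ Y0 σ x)
    (hy : yf0 c z ≠ 0) :
    Y3 ρ (1 / c) σ x - yf3 c z = -12 * (Y2 σ x - yf2 c z) - 29 * (Y1 σ x - yf1 c z) +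
      42 * (Y0 σ x - yf0 c z) - x ^ 2 * (Y0 σ x - yf0 c z) / (2 * Y0 σ x * yf0 c z) -
      resf c z / (2 * c * yf0 c z) := by
  have hY0 : Y0 σ x ≠ 0 := by linarith
  have e : cc1 c + cc2 c * z + cc3 * z ^ 2 + cc4 * z ^ 3 + cc5 * z ^ 4 = x ^ 2 * (yf0 c z - c) := by
    have : x ^ 2 * (yf0 c z - c) =
        (x ^ 2 * z) * (cc1 c + cc2 c * z + cc3 * z ^ 2 + cc4 * z ^ 3 + cc5 * z ^ 4) := by
      unfold yf0
      ring
    rw [this, hz, one_mul]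
  unfold Y3 resf
  rw [hρ _ hY, e]
  field_simp
  ring

theorem c_bounds (hc : |c - cc0| ≤ 1 / 10 ^ 6) : 8816 / 10000 ≤ c ∧ c ≤ 8817 / 10000 := by
  have := abs_le.1 hc
  unfold cc0 at this
  constructor <;> linarith [this.1, this.2]

theorem z_bounds {w : ℝ} (hw : 4 ≤ w) : 0 ≤ 1 / w ^ 6 ∧ 1 / w ^ 6 ≤ 1 / 4096 := by
  have h : (4 : ℝ) ^ 6 ≤ w ^ 6 := pow_le_pow_left₀ (by norm_num) hw 6
  exact ⟨by positivity, one_div_le_one_div_of_le (by norm_num) (by linarith)⟩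

theorem h0_small {w : ℝ} (hw : 4 ≤ w) (hk : |k0 σ c w| ≤ 9000) : |h0 σ c w| ≤ 1 / 10 ^ 4 := by
  have h : (4 : ℝ) ^ 12 ≤ w ^ 12 := pow_le_pow_left₀ (by norm_num) hw 12
  unfold k0 at hk
  rw [abs_mul, abs_mul, abs_of_nonneg (by positivity : (0 : ℝ) ≤ w ^ 12),
    abs_of_pos (by norm_num : (0 : ℝ) < 4096)] at hk
  nlinarith [abs_nonneg (h0 σ c w)]

theorem eps_bound {Y y z : ℝ} (hY : 8795 / 10000 ≤ Y) (hY' : Y ≤ 8818 / 10000)
    (y0 : 8796 / 10000 ≤ y) (y1 : y ≤ 8817 / 10000) (z0 : 0 ≤ z) (z1 : z ≤ 1 / 4096) :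
    |1953125 / 1259712 * (1 / (2 * Y * y) - 30 * z) - 1| ≤ 2 / 100 := by
  have hYy : 0 < 2 * Y * y := by positivity
  have u1 : 1 / (2 * Y * y) ≤ 6464 / 10000 := by
    rw [div_le_iff₀ hYy]
    nlinarith
  have u2 : 6430 / 10000 ≤ 1 / (2 * Y * y) := by
    rw [le_div_iff₀ hYy]
    nlinarith
  rw [abs_le]
  constructor <;> linarith

theorem force_bound {w R c y : ℝ} (hw : 4 ≤ w) (r0 : |R| ≤ 50 * (1 / w ^ 6) ^ 2)
    (c0 : 8816 / 10000 ≤ c) (y0 : 8796 / 10000 ≤ y) :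
    |125000000 / 19683 * w ^ 6 * R / (2 * c * y)| ≤ 60 := by
  have hw0 : 0 < w := by linarith
  have hz := (z_bounds hw).2
  have hcy : 0 < 2 * c * y := by positivity
  rw [abs_div, abs_of_pos hcy, div_le_iff₀ hcy, abs_mul,
    abs_of_nonneg (by positivity : (0 : ℝ) ≤ 125000000 / 19683 * w ^ 6)]
  have u1 : w ^ 6 * |R| ≤ w ^ 6 * (50 * (1 / w ^ 6) ^ 2) :=
    mul_le_mul_of_nonneg_left r0 (by positivity)
  have u2 : w ^ 6 * (50 * (1 / w ^ 6) ^ 2) = 50 * (1 / w ^ 6) := by field_simp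
  have u3 : 8816 / 10000 * (8796 / 10000) ≤ c * y := mul_le_mul c0 y0 (by norm_num) (by linarith)
  linarith

theorem b2_bound {ε F p q a b c : ℝ} (hε : |ε| ≤ 2 / 100) (hF : |F| ≤ 60) (p2 : 0 < p)
    (p4 : 0 < q) (i2 : p ≤ 1 / 16) (i4 : q ≤ 1 / 256) (a0 : |a| ≤ 9000) (a1 : |b| ≤ 9000)
    (a2 : |c| ≤ 9000) :
    |-(ε * a) + 19 * (15625 / 11664) * (q * b) - 125 / 81 * (p * c) - F| ≤ 2500 := by
  have t0 : |ε * a| ≤ 2 / 100 * 9000 := by
    rw [abs_mul]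
    exact mul_le_mul hε a0 (abs_nonneg _) (by norm_num)
  have t1 : |q * b| ≤ 1 / 256 * 9000 := by
    rw [abs_mul, abs_of_pos p4]
    exact mul_le_mul i4 a1 (abs_nonneg _) (by norm_num)
  have t2 : |p * c| ≤ 1 / 16 * 9000 := by
    rw [abs_mul, abs_of_pos p2]
    exact mul_le_mul i2 a2 (abs_nonneg _) (by norm_num)
  rw [abs_le]
  obtain ⟨_, _⟩ := abs_le.1 t0
  obtain ⟨_, _⟩ := abs_le.1 t1
  obtain ⟨_, _⟩ := abs_le.1 t2
  obtain ⟨_, _⟩ := abs_le.1 hF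
  constructor <;> linarith

theorem coneSys (hN : FarNum) (hρ : Rho ρ) (hc : |c - cc0| ≤ 1 / 10 ^ 6)
    (h : IVP ρ a (1 / c) σ) : ConeSys (k0 σ c) (k1 σ c) (k2 σ c) := by
  intro w hw
  have hw0 : 0 < w := by linarith
  have d0 := hasDerivAt_h0 h.smooth c hw0.ne'
  have d1 := hasDerivAt_h1 h.smooth c hw0.ne'
  have d2 := hasDerivAt_h2 h c hw0.ne'
  set H := Y3 ρ (1 / c) σ (w ^ 3) - yf3 c (1 / w ^ 6) with hH
  refine ⟨-(125 / (162 * w ^ 2)) * k1 σ c w, k0 σ c w + 125000000 / 19683 * w ^ 6 *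
    (H + 32 / 3 * h2 σ c w + 112 / 3 * h1 σ c w + 128 / 3 * h0 σ c w), ?_, ?_, ?_, ?_⟩
  · have e : HasDerivAt (k0 σ c) _ w := ((hasDerivAt_pow 12 w).mul d0).const_mul 4096
    refine e.congr_deriv ?_
    unfold k1
    push_cast
    field_simp
    ring
  · have e : HasDerivAt (k1 σ c) _ w :=
      ((hasDerivAt_pow 10 w).mul (d1.add (d0.const_mul 4))).const_mul (128000 / 27)
    refine e.congr_deriv ?_
    simp only [k1, k2, Pi.add_apply]
    push_cast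
    field_simp
    ring
  · have e : HasDerivAt (k2 σ c) _ w :=
      ((hasDerivAt_pow 8 w).mul ((d2.add (d1.const_mul 8)).add (d0.const_mul 16))).const_mul
        (4000000 / 729)
    refine e.congr_deriv ?_
    simp only [Pi.add_apply]
    push_cast
    field_simp
    ring
  · intro a0 a1 a2
    have hw2 : 16 ≤ w ^ 2 := by nlinarith
    have hw4 : 256 ≤ w ^ 4 := by nlinarith
    have i2 : 1 / w ^ 2 ≤ 1 / 16 := one_div_le_one_div_of_le (by norm_num) hw2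
    have i4 : 1 / w ^ 4 ≤ 1 / 256 := one_div_le_one_div_of_le (by norm_num) hw4
    have p2 : 0 < 1 / w ^ 2 := by positivity
    have p4 : 0 < 1 / w ^ 4 := by positivity
    constructor
    · have e : -(125 / (162 * w ^ 2)) * k1 σ c w = -(125 / 162) * (1 / w ^ 2 * k1 σ c w) := by
        field_simp
      rw [e, abs_mul, abs_mul, abs_of_pos p2, abs_neg,
        abs_of_pos (by norm_num : (0 : ℝ) < 125 / 162)]
      nlinarith [abs_nonneg (k1 σ c w)]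
    obtain ⟨z0, z1⟩ := z_bounds hw
    obtain ⟨c0, c1⟩ := c_bounds hc
    obtain ⟨r0, y0, y1⟩ := hN c _ hc z0 z1
    have hs := abs_le.1 (h0_small hw a0)
    have hY : 8795 / 10000 ≤ Y0 σ (w ^ 3) ∧ Y0 σ (w ^ 3) ≤ 8818 / 10000 := by
      unfold h0 at hs
      constructor <;> linarith [hs.1, hs.2]
    have hH' := Y3_sub (σ := σ) (x := w ^ 3) (z := 1 / w ^ 6) hρ (by linarith : c ≠ 0)
      (by field_simp) (by linarith [hY.1]) (by linarith : yf0 c (1 / w ^ 6) ≠ 0)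
    rw [← hH] at hH'
    set y := yf0 c (1 / w ^ 6) with hy
    set Y := Y0 σ (w ^ 3) with hYd
    have hYy : 0 < 2 * Y * y := by have := hY.1; positivity
    have hcy : 0 < 2 * c * y := by positivity
    set ε := 1953125 / 1259712 * (1 / (2 * Y * y) - 30 * (1 / w ^ 6)) - 1 with hε
    set F := 125000000 / 19683 * w ^ 6 * resf c (1 / w ^ 6) / (2 * c * y) with hF
    have e : k0 σ c w + 125000000 / 19683 * w ^ 6 *
        (H + 32 / 3 * h2 σ c w + 112 / 3 * h1 σ c w + 128 / 3 * h0 σ c w) =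
        -(ε * k0 σ c w) + 19 * (15625 / 11664) * (1 / w ^ 4 * k1 σ c w) -
          125 / 81 * (1 / w ^ 2 * k2 σ c w) - F := by
      rw [hH', hε, hF]
      simp only [k0, k1, k2, h0, h1, h2, ← hy, ← hYd]
      have := hY.1
      field_simp
      ring
    rw [e]
    exact b2_bound (eps_bound hY.1 hY.2 y0 y1 z0 z1) (force_bound hw r0 c0 y0) p2 p4 i2 i4 a0 a1 a2

end Vale.Agent.N264X.P264Z.S
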