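import Vale.Agent.N264X.S.Defs
import Vale.Agent.N264X.S.Poly

/-!
# P264, block S: the numerical facts on the far field approximation
-/

namespace Vale.Agent.N264X.P264Z.S

open Vale.Agent.P264Z

/-- evaluation of a polynomial in two variables -/
def pe2 : List (List ℚ) → ℝ → ℝ → ℝ
  | [], _, _ => 0
  | a :: l, g, z => pe a g + z * pe2 l g z

def pb2 : List (List ℚ) → ℚ → ℚ → ℚ
  | [], _, _ => 0
  | a :: l, g, z => pb a g + z * pb2 l g z

def padd2 : List (List ℚ) → List (List ℚ) → List (List ℚ)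
  | [], q => q
  | a :: p, [] => a :: p
  | a :: p, b :: q => padd a b :: padd2 p q

def psm2 (c : List ℚ) : List (List ℚ) → List (List ℚ)
  | [] => []
  | a :: p => pmul c a :: psm2 c p

def pmul2 : List (List ℚ) → List (List ℚ) → List (List ℚ)
  | [], _ => []
  | a :: p, q => padd2 (psm2 a q) ([] :: pmul2 p q)

theorem pe2_add (p q : List (List ℚ)) (g z : ℝ) : pe2 (padd2 p q) g z = pe2 p g z + pe2 q g z := by
  induction p generalizing q with
  | nil => simp [pe2, padd2]
  | cons a p ih =>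
    cases q with
    | nil => simp [pe2, padd2]
    | cons b q => simp only [padd2, pe2, ih, pe_add]; ring

theorem pe2_sm (c : List ℚ) (p : List (List ℚ)) (g z : ℝ) :
    pe2 (psm2 c p) g z = pe c g * pe2 p g z := by
  induction p with
  | nil => simp [pe2, psm2]
  | cons a p ih => simp only [psm2, pe2, ih, pe_mul]; ring

theorem pe2_mul (p q : List (List ℚ)) (g z : ℝ) : pe2 (pmul2 p q) g z = pe2 p g z * pe2 q g z := by
  induction p with
  | nil => simp [pe2, pmul2]
  | cons a p ih => simp only [pmul2, pe2_add, pe2_sm, pe2, ih, pe]; ring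

theorem pe2_tail (l : List (List ℚ)) (g z : ℝ) :
    pe2 l g z = pe (l.headD []) g + z * pe2 l.tail g z := by
  cases l with
  | nil => simp [pe2, pe]
  | cons a l => simp [pe2]

theorem pe_tail (l : List ℚ) (t : ℝ) : pe l t = (l.headD 0 : ℚ) + t * pe l.tail t := by
  cases l with
  | nil => simp [pe]
  | cons a l => simp [pe]

theorem abs_pe2_le (l : List (List ℚ)) {r s : ℚ} {g z : ℝ} (hg : |g| ≤ r) (hz : |z| ≤ s) :
    |pe2 l g z| ≤ (pb2 l r s : ℚ) := by
  induction l with
  | nil => simp [pe2, pb2]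
  | cons a l ih =>
    simp only [pe2, pb2, Rat.cast_add, Rat.cast_mul]
    refine (abs_add_le _ _).trans (add_le_add (abs_pe_le a hg) ?_)
    rw [abs_mul]
    exact mul_le_mul hz ih (abs_nonneg _) ((abs_nonneg _).trans hz)

/-- `c` as a polynomial in `c - cc0` -/
def C0 : List ℚ := [881603967426982 / 1000000000000000, 1]
def C1 : List ℚ := psm (-84) (pmul C0 (pmul C0 (padd [1] (psm (-1) C0))))
def C2 : List ℚ := psm (-2) (pmul C0 (pmul C1 (padd [42] (psm (-102) C0))))

theorem pe_C0 (c : ℝ) : pe C0 (c - cc0) = c := by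
  simp only [C0, pe, cc0]
  push_cast
  ring

theorem pe_C1 (c : ℝ) : pe C1 (c - cc0) = cc1 c := by
  simp only [C1, pe_sm, pe_mul, pe_add, pe_C0, pe, cc1]
  push_cast
  ring

theorem pe_C2 (c : ℝ) : pe C2 (c - cc0) = cc2 c := by
  simp only [C2, pe_sm, pe_mul, pe_add, pe_C0, pe_C1, pe, cc2]
  push_cast
  ring

def F1 : List (List ℚ) := [C1, C2, [-184113 / 10], [962599], [56115700]]
def TT : List (List ℚ) := [padd [42] (psm (-42) C0), psm (-60) C1, psm (-30) C2,
  [0], [-18 * 962599], [-132 * 56115700]]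
def RES : List (List ℚ) := padd2 (psm2 (psm 2 C0) (pmul2 (C0 :: F1) TT)) F1

theorem pe2_F1 (c z : ℝ) : pe2 F1 (c - cc0) z =
    cc1 c + cc2 c * z + cc3 * z ^ 2 + cc4 * z ^ 3 + cc5 * z ^ 4 := by
  simp only [F1, pe2, pe_C1, pe_C2, pe, cc3, cc4, cc5]
  push_cast
  ring

theorem pe2_RES (c z : ℝ) : pe2 RES (c - cc0) z = resf c z := by
  simp only [RES, pe2_add, pe2_sm, pe2_mul, pe2, pe2_F1, TT, pe_sm, pe_add, pe_C0, pe_C1, pe_C2, pe,
    resf, yf0, yf1, yf2, yf3, cc3, cc4, cc5]
  push_cast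
  ring

theorem res_a : pb (RES.headD []) (1 / 1000000) = 0 := by decide +kernel
theorem res_b : pb (RES.tail.headD []) (1 / 1000000) = 0 := by decide +kernel
theorem res_c : pb2 RES.tail.tail (1 / 1000000) (1 / 4096) ≤ 50 := by decide +kernel
theorem res_d : pb2 F1 (1 / 1000000) (1 / 4096) ≤ 8 := by decide +kernel
theorem res_e : pb2 F1.tail (1 / 1000000) (1 / 4096) ≤ 4096 := by decide +kernel
theorem res_f : 1 ≤ plow (psm (-1) C1) (1 / 1000000) := by decide +kernel

theorem farNum : FarNum := by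
  intro c z hc hz0 hz1
  have hg : |c - cc0| ≤ ((1 / 1000000 : ℚ) : ℝ) := by
    push_cast
    linarith
  have hz : |z| ≤ ((1 / 4096 : ℚ) : ℝ) := by
    rw [abs_of_nonneg hz0]
    push_cast
    exact hz1
  have e0 : yf0 c z = c + z * pe2 F1 (c - cc0) z := by
    rw [pe2_F1, yf0]
    ring
  have hc' := abs_le.1 hc
  unfold cc0 at hc'
  refine ⟨?_, ?_, ?_⟩
  · have h1 := abs_pe_le (RES.headD []) hg
    have h2 := abs_pe_le (RES.tail.headD []) hg
    rw [res_a, Rat.cast_zero, abs_nonpos_iff] at h1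
    rw [res_b, Rat.cast_zero, abs_nonpos_iff] at h2
    have h3 : |pe2 RES.tail.tail (c - cc0) z| ≤ 50 :=
      (abs_pe2_le _ hg hz).trans (by exact_mod_cast res_c)
    rw [← pe2_RES, pe2_tail, pe2_tail RES.tail, h1, h2, zero_add, zero_add, ← mul_assoc, abs_mul,
      abs_of_nonneg (mul_nonneg hz0 hz0)]
    nlinarith [mul_nonneg hz0 hz0]
  · have h3 : |pe2 F1 (c - cc0) z| ≤ 8 := (abs_pe2_le _ hg hz).trans (by exact_mod_cast res_d)
    rw [e0]
    nlinarith [(abs_le.1 h3).1]
  · have h3 : |pe2 F1.tail (c - cc0) z| ≤ 4096 :=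
      (abs_pe2_le _ hg hz).trans (by exact_mod_cast res_e)
    have h4 : (1 : ℝ) ≤ pe (psm (-1) C1) (c - cc0) :=
      le_trans (by exact_mod_cast res_f) (plow_le _ hg)
    rw [pe_sm] at h4
    have h5 : pe2 F1 (c - cc0) z = pe C1 (c - cc0) + z * pe2 F1.tail (c - cc0) z := rfl
    have h6 : pe2 F1 (c - cc0) z ≤ 0 := by
      rw [h5]
      push_cast at h4
      nlinarith [(abs_le.1 h3).2]
    rw [e0]
    nlinarith

end Vale.Agent.N264X.P264Z.S
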