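import Vale.Agent.N264X.S.Cert
import Vale.Agent.N264X.S.FarNum

/-!
# P264, block S: matching the near field and the far field
-/

open Set Metric

namespace Vale.Agent.N264X.P264Z.S

open Vale.Agent.P264Z

def al0 : ℚ := 2724815 / 1000000000000
def al1 : ℚ := -929317 / 1000000000000
def ga0 : ℚ := 377130 / 10000000000000
def ga1 : ℚ := -1387263 / 10000000000000

/-- a combination of the far field coefficients at `z = 1/4096` -/
def YF (w0 w1 w2 w3 w4 w5 : ℚ) : List ℚ :=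
  padd (padd (psm w0 C0) (psm (w1 / 4096) C1)) (padd (psm (w2 / 4096 ^ 2) C2)
    [w3 * (-184113 / 10) / 4096 ^ 3 + w4 * 962599 / 4096 ^ 4 + w5 * 56115700 / 4096 ^ 5])

def WW (l : V3) : List ℚ :=
  padd [l.a] (psm (-1) (padd (padd (psm l.a (YF 1 1 1 1 1 1)) (psm l.b (YF 0 (-2) (-4) (-6) (-8) (-10))))
    (psm l.c (YF 0 4 16 36 64 100))))

def II (l : V3) : V3 := ⟨-64 * l.a - 64 * l.b + 3520 * l.c, -4096 * l.b + 53248 * l.c, -64 * l.c⟩

theorem comb_eq (l : V3) (σ : ℝ → ℝ) (c : ℝ) :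
    l.a * h0 σ c 4 + l.b * h1 σ c 4 + l.c * h2 σ c 4 =
      (II l).dR (σ 64) (deriv σ 64) (Mop 7 σ 64) + pe (WW l) (c - cc0) := by
  have e : (4 : ℝ) ^ 3 = 64 := by norm_num
  simp only [h0, h1, h2, e, Y0, Y1, Y2, yf0, yf1, yf2, cc3, cc4, cc5, II, V3.dR, WW, YF, pe_add,
    pe_sm, pe, pe_C0, pe_C1, pe_C2]
  push_cast
  ring

/-- the final bound -/
def finB (P : Pc) (l : V3) (n0 n1 : ℚ) : ℚ :=
  V3.rowB (II l) (P.tp P.p1 64) (P.tp P.p2 64) (P.tp P.p3 64) ⟨P.err0, P.err1, P.m⟩ P.e1 P.e2 P.e3 0 +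
    |(II l).dot (P.tp P.s 64) + (WW l).headD 0| +
    |al0 * (II l).dot (P.tp P.p1 64) +
      ga0 * ((WW l).tail.headD 0 - K0 ^ 2 * (II l).dot (P.tp P.p4 64)) - n0| +
    |al1 * (II l).dot (P.tp P.p1 64) +
      ga1 * ((WW l).tail.headD 0 - K0 ^ 2 * (II l).dot (P.tp P.p4 64)) - n1| +
    |(II l).dot (P.tp P.p4 64)| * (3 / 1000000000000) +
    pb (WW l).tail.tail (1 / 1000000) * (1 / 1000000) * (1 / 1000000)

theorem fin_sound (P : Pc) (hP : P.xr = 64) (l : V3) (n0 n1 : ℚ) {σ : ℝ → ℝ} {c k p0 p1 : ℝ}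
    (h0' : |p0| ≤ 1) (h1' : |p1| ≤ 1) (hc : c - cc0 = ga0 * p0 + ga1 * p1)
    (hg : |c - cc0| ≤ 1 / 1000000) (hk : |k + K0 ^ 2 * (c - cc0)| ≤ 3 / 1000000000000)
    (hO : P.Out σ (al0 * p0 + al1 * p1) k) :
    |l.a * h0 σ c 4 + l.b * h1 σ c 4 + l.c * h2 σ c 4 - n0 * p0 - n1 * p1| ≤ finB P l n0 n1 := by
  obtain ⟨c1, c2, c3, hB, q0, q1, q2⟩ := hO
  obtain ⟨e0, e1, e2⟩ := P.cmb_eq c1 c2 c3 k P.xr
  rw [e0] at q0
  rw [e1] at q1
  rw [e2] at q2
  rw [hP] at q0 q1 q2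
  have e64 : ((64 : ℚ) : ℝ) = 64 := by norm_num
  rw [e64] at q0 q1 q2
  set α := al0 * p0 + al1 * p1 with hα
  have R := V3.row_bd (II l) (P.tp P.p1 64) (P.tp P.p2 64) (P.tp P.p3 64) ⟨P.err0, P.err1, P.m⟩
    P.e1 P.e2 P.e3 0
    (x := σ 64 - (P.tp P.s 64).a - α * (P.tp P.p1 64).a - k * (P.tp P.p4 64).a)
    (y := deriv σ 64 - (P.tp P.s 64).b - α * (P.tp P.p1 64).b - k * (P.tp P.p4 64).b)
    (z := Mop 7 σ 64 - (P.tp P.s 64).c - α * (P.tp P.p1 64).c - k * (P.tp P.p4 64).c)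
    hB.1 hB.2.1 hB.2.2 (by convert q0 using 2; ring) (by convert q1 using 2; ring)
    (by convert q2 using 2; ring)
  have hg' : |c - cc0| ≤ ((1 / 1000000 : ℚ) : ℝ) := by
    push_cast
    exact hg
  have H := abs_add_le' (abs_add_le' (abs_add_le' (abs_add_le' (abs_add_le' R
    (le_refl |(((II l).dot (P.tp P.s 64) + (WW l).headD 0 : ℚ) : ℝ)|))
    (abs_mul_le' (le_refl |((al0 * (II l).dot (P.tp P.p1 64) +
      ga0 * ((WW l).tail.headD 0 - K0 ^ 2 * (II l).dot (P.tp P.p4 64)) - n0 : ℚ) : ℝ)|) h0'))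
    (abs_mul_le' (le_refl |((al1 * (II l).dot (P.tp P.p1 64) +
      ga1 * ((WW l).tail.headD 0 - K0 ^ 2 * (II l).dot (P.tp P.p4 64)) - n1 : ℚ) : ℝ)|) h1'))
    (abs_mul_le' (le_refl |(((II l).dot (P.tp P.p4 64) : ℚ) : ℝ)|) hk))
    (abs_mul_le' (abs_mul_le' (abs_pe_le (WW l).tail.tail hg') hg) hg)
  refine le_trans (le_of_eq (congrArg abs ?_)) (H.trans (le_of_eq ?_))
  · rw [comb_eq, pe_tail (WW l), pe_tail (WW l).tail]
    simp only [V3.dR, V3.dot]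
    push_cast
    linear_combination ((((WW l).tail.headD 0 : ℚ) : ℝ) - K0 ^ 2 * ((II l).a * (P.tp P.p4 64).a +
      (II l).b * (P.tp P.p4 64).b + (II l).c * (P.tp P.p4 64).c)) * hc +
      ((II l).a * (P.tp P.p1 64).a + (II l).b * (P.tp P.p1 64).b + (II l).c * (P.tp P.p1 64).c) * hα
  · simp only [finB]
    push_cast
    ring

def l0 : V3 := ⟨4 ^ 18 + 4 * (128000 / 27 * 4 ^ 10), 128000 / 27 * 4 ^ 10, 0⟩
def l1 : V3 := ⟨4 * (128000 / 27 * 4 ^ 10) + 16 * (4000000 / 729 * 4 ^ 8),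
  128000 / 27 * 4 ^ 10 + 8 * (4000000 / 729 * 4 ^ 8), 4000000 / 729 * 4 ^ 8⟩
def l2 : V3 := ⟨4 ^ 18 - 4 * (128000 / 27 * 4 ^ 10) + 16 * (4000000 / 729 * 4 ^ 8),
  -(128000 / 27 * 4 ^ 10) + 8 * (4000000 / 729 * 4 ^ 8), 4000000 / 729 * 4 ^ 8⟩

theorem fin_x : P34.xr = 64 := by decide +kernel
theorem fin_0 : finB P34 l0 10000 0 ≤ 1000 := by decide +kernel
theorem fin_1 : finB P34 l1 0 10000 ≤ 1000 := by decide +kernel
theorem fin_2 : finB P34 l2 0 0 ≤ 10000 := by decide +kernel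

/-- the shrinker, from the three analytic blocks -/
theorem shrinker_of (hF : Family) (hT : Trap) (hB : Bounds) : ∃ σ, Shrinker 7 σ := by
  obtain ⟨ρ, hρ, hF⟩ := hF
  set c : (Fin 2 → ℝ) → ℝ := fun p => cc0 + (ga0 * p 0 + ga1 * p 1) with hc
  set a : (Fin 2 → ℝ) → ℝ := fun p => a0 + (al0 * p 0 + al1 * p 1) with ha
  have hp : ∀ p : Fin 2 → ℝ, ‖p‖ ≤ 1 → |p 0| ≤ 1 ∧ |p 1| ≤ 1 := fun p h =>
    ⟨(norm_le_pi_norm p 0).trans h, (norm_le_pi_norm p 1).trans h⟩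
  have hγ : ∀ p : Fin 2 → ℝ, ‖p‖ ≤ 1 → |c p - cc0| ≤ 1 / 1000000 := by
    intro p h
    obtain ⟨u, v⟩ := hp p h
    rw [abs_le] at u v ⊢
    simp only [hc, ga0, ga1]
    push_cast
    constructor <;> linarith [u.1, u.2, v.1, v.2]
  have hpos : ∀ p : Fin 2 → ℝ, ‖p‖ ≤ 1 → 8816 / 10000 ≤ c p := by
    intro p h
    have := (abs_le.1 (hγ p h)).1
    unfold cc0 at this
    linarith
  have cc : Continuous c := by fun_prop
  have ca : Continuous a := by fun_prop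
  obtain ⟨σ, hσ, hC⟩ := hF a (fun p => 1 / c p) ca.continuousOn
    (continuousOn_const.div cc.continuousOn fun p h => by
      have := hpos p (mem_closedBall_zero_iff.1 h)
      linarith)
  have hN : ∀ p : Fin 2 → ℝ, ‖p‖ ≤ 1 →
      (|k0 (σ p) (c p) 4 + k1 (σ p) (c p) 4 - 10000 * p 0| ≤ 1000 ∧
      |k1 (σ p) (c p) 4 + k2 (σ p) (c p) 4 - 10000 * p 1| ≤ 1000 ∧
      |k0 (σ p) (c p) 4 - k1 (σ p) (c p) 4 + k2 (σ p) (c p) 4| ≤ 10000) ∧
      ∀ x ∈ Icc (0 : ℝ) 64, 1 / 18 ≤ 1 - x * σ p x := by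
    intro p h
    obtain ⟨u, v⟩ := hp p h
    have g1 := hγ p h
    have g2 := hpos p h
    have g3 : (0 : ℝ) < c p := by linarith
    have hα : |al0 * p 0 + al1 * p 1| ≤ (AA : ℝ) := by
      rw [abs_le] at u v ⊢
      simp only [al0, al1, AA]
      push_cast
      constructor <;> linarith [u.1, u.2, v.1, v.2]
    have hK : (K0 : ℝ) = 1 / cc0 := by
      simp only [K0, cc0]
      norm_num
    have c0 : (8816 / 10000 : ℝ) ≤ cc0 := by
      unfold cc0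
      norm_num
    have hk : |1 / c p - K0| ≤ (BB : ℝ) := by
      have e : 1 / c p - K0 = -(c p - cc0) * (1 / (c p * cc0)) := by
        rw [hK]
        field_simp
        ring
      have b : |1 / (c p * cc0)| ≤ 2 := by
        rw [abs_of_pos (by positivity), div_le_iff₀ (by positivity)]
        nlinarith
      have := abs_mul_le' ((abs_neg _).trans_le g1) b
      rw [e]
      simp only [BB]
      push_cast
      linarith
    have hk2 : |1 / c p - K0 + K0 ^ 2 * (c p - cc0)| ≤ 3 / 1000000000000 := by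
      have e : 1 / c p - K0 + K0 ^ 2 * (c p - cc0) =
          (c p - cc0) * (c p - cc0) * (1 / (c p * cc0 ^ 2)) := by
        rw [hK]
        field_simp
        ring
      have b : |1 / (c p * cc0 ^ 2)| ≤ 3 := by
        rw [abs_of_pos (by positivity), div_le_iff₀ (by positivity)]
        have : (1 / 2 : ℝ) ≤ cc0 ^ 2 := by nlinarith
        nlinarith
      have := abs_mul_le' (abs_mul_le' g1 g1) b
      rw [e]
      linarith
    have hI : IVP ρ (a0 + (al0 * p 0 + al1 * p 1)) (K0 + (1 / c p - K0)) (σ p) := by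
      rw [add_sub_cancel]
      exact hσ p h
    obtain ⟨hO, hY⟩ := near hρ hI hα hk
    have hcγ : c p - cc0 = ga0 * p 0 + ga1 * p 1 := by simp only [hc]; ring
    have f0 := (fin_sound P34 fin_x l0 10000 0 u v hcγ g1 hk2 hO).trans (Rat.cast_le.2 fin_0)
    have f1 := (fin_sound P34 fin_x l1 0 10000 u v hcγ g1 hk2 hO).trans (Rat.cast_le.2 fin_1)
    have f2 := (fin_sound P34 fin_x l2 0 0 u v hcγ g1 hk2 hO).trans (Rat.cast_le.2 fin_2)
    simp only [l0, l1, l2] at f0 f1 f2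
    push_cast at f0 f1 f2
    refine ⟨⟨?_, ?_, ?_⟩, ?_⟩
    · refine le_trans (le_of_eq (congrArg abs ?_)) f0
      simp only [k0, k1]
      ring
    · refine le_trans (le_of_eq (congrArg abs ?_)) f1
      simp only [k1, k2]
      ring
    · refine le_trans (le_of_eq (congrArg abs ?_)) f2
      simp only [k0, k1, k2]
      ring
    · rw [fin_x] at hY
      exact_mod_cast hY
  have hγ' : ∀ p : Fin 2 → ℝ, ‖p‖ ≤ 1 → |c p - cc0| ≤ 1 / 10 ^ 6 := fun p h => by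
    have := hγ p h
    linarith
  obtain ⟨p, h, hw⟩ := hT ρ a c σ hρ cc.continuousOn hγ' hσ hC fun p h => (hN p h).1
  exact ⟨σ p, hB ρ (a p) (c p) (σ p) hρ (hγ' p h) (hσ p h) (hN p h).2 hw⟩

end Vale.Agent.N264X.P264Z.S
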