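import Vale.Agent.N264X.S.Far

/-!
# P264, block S3a: some member of the family stays in the far field tube
-/

open scoped ContDiff
open Set Metric

noncomputable section

namespace Vale.Agent.N264X.P264Z.S

open Vale.Agent.P264Z

theorem cont_aux {X : Type*} [TopologicalSpace X] {D : Set X} {A B C c z w : X → ℝ}
    (hA : ContinuousOn A D) (hB : ContinuousOn B D) (hC : ContinuousOn C D)
    (hc : ContinuousOn c D) (hz : ContinuousOn z D) (hw : ContinuousOn w D) :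
    ContinuousOn (fun q => 4096 * (w q ^ 12 * (1 - w q ^ 3 * A q - yf0 (c q) (z q)))) D ∧
    ContinuousOn (fun q => 128000 / 27 * (w q ^ 10 * (-w q ^ 3 * A q - (w q ^ 3) ^ 2 * B q -
      yf1 (c q) (z q) + 4 * (1 - w q ^ 3 * A q - yf0 (c q) (z q))))) D ∧
    ContinuousOn (fun q => 4000000 / 729 * (w q ^ 8 * (55 * w q ^ 3 * A q +
      13 * (w q ^ 3) ^ 2 * B q - w q ^ 3 * C q - yf2 (c q) (z q) +
      8 * (-w q ^ 3 * A q - (w q ^ 3) ^ 2 * B q - yf1 (c q) (z q)) +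
      16 * (1 - w q ^ 3 * A q - yf0 (c q) (z q))))) D := by
  have y0 : ContinuousOn (fun q => yf0 (c q) (z q)) D := by
    unfold yf0 cc2 cc1
    fun_prop
  have y1 : ContinuousOn (fun q => yf1 (c q) (z q)) D := by
    unfold yf1 cc2 cc1
    fun_prop
  have y2 : ContinuousOn (fun q => yf2 (c q) (z q)) D := by
    unfold yf2 cc2 cc1
    fun_prop
  have g0 : ContinuousOn (fun q => 1 - w q ^ 3 * A q - yf0 (c q) (z q)) D :=
    ContinuousOn.sub (by fun_prop) y0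
  have g1 : ContinuousOn (fun q => -w q ^ 3 * A q - (w q ^ 3) ^ 2 * B q - yf1 (c q) (z q)) D :=
    ContinuousOn.sub (by fun_prop) y1
  have g2 : ContinuousOn (fun q => 55 * w q ^ 3 * A q + 13 * (w q ^ 3) ^ 2 * B q -
      w q ^ 3 * C q - yf2 (c q) (z q)) D := ContinuousOn.sub (by fun_prop) y2
  exact ⟨continuousOn_const.mul ((hw.pow 12).mul g0),
    continuousOn_const.mul ((hw.pow 10).mul (g1.add (continuousOn_const.mul g0))),
    continuousOn_const.mul ((hw.pow 8).mul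
      ((g2.add (continuousOn_const.mul g1)).add (continuousOn_const.mul g0)))⟩

theorem cont_k {c : (Fin 2 → ℝ) → ℝ} {σ : (Fin 2 → ℝ) → ℝ → ℝ}
    (hc : ContinuousOn c (closedBall 0 1)) (hσ : Cts σ) :
    ContinuousOn (fun q : (Fin 2 → ℝ) × ℝ => k0 (σ q.1) (c q.1) q.2) (closedBall 0 1 ×ˢ Ici 4) ∧
    ContinuousOn (fun q : (Fin 2 → ℝ) × ℝ => k1 (σ q.1) (c q.1) q.2) (closedBall 0 1 ×ˢ Ici 4) ∧
    ContinuousOn (fun q : (Fin 2 → ℝ) × ℝ => k2 (σ q.1) (c q.1) q.2) (closedBall 0 1 ×ˢ Ici 4) := by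
  set D : Set ((Fin 2 → ℝ) × ℝ) := closedBall 0 1 ×ˢ Ici 4 with hD
  have hm : MapsTo (fun q : (Fin 2 → ℝ) × ℝ => (q.1, q.2 ^ 3)) D (closedBall 0 1 ×ˢ Ioi 0) := by
    intro q hq
    have : (4 : ℝ) ≤ q.2 := hq.2
    exact ⟨hq.1, mem_Ioi.2 (by positivity)⟩
  have hg : ContinuousOn (fun q : (Fin 2 → ℝ) × ℝ => (q.1, q.2 ^ 3)) D := by fun_prop
  have s0 := hσ.c0.comp hg hm
  have s1 := hσ.c1.comp hg hm
  have s2 := hσ.c2.comp hg hm
  simp only [Function.comp_def] at s0 s1 s2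
  have sc : ContinuousOn (fun q : (Fin 2 → ℝ) × ℝ => c q.1) D :=
    hc.comp continuousOn_fst fun q hq => hq.1
  have sz : ContinuousOn (fun q : (Fin 2 → ℝ) × ℝ => 1 / q.2 ^ 6) D := by
    refine continuousOn_const.div (by fun_prop) fun q hq => ?_
    have : (4 : ℝ) ≤ q.2 := hq.2
    positivity
  have sw : ContinuousOn (fun q : (Fin 2 → ℝ) × ℝ => q.2) D := continuousOn_snd
  obtain ⟨g0, g1, g2⟩ := cont_aux s0 s1 s2 sc sz sw
  refine ⟨?_, ?_, ?_⟩
  · simpa only [k0, h0, Y0] using g0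
  · simpa only [k1, h0, h1, Y0, Y1] using g1
  · simpa only [k2, h0, h1, h2, Y0, Y1, Y2] using g2

theorem nu_eq (a b c : ℝ) :
    nu a b c = 2 / 3 * ((a + b) ^ 2 - (a + b) * (b + c) + (b + c) ^ 2) := by
  unfold nu
  ring

theorem exists_abs_eq_one {p : Fin 2 → ℝ} (hp : ‖p‖ = 1) : |p 0| = 1 ∨ |p 1| = 1 := by
  by_contra h
  push Not at h
  have h0 : ∀ i, |p i| ≤ 1 := fun i => by
    have := norm_le_pi_norm p i
    rwa [hp, Real.norm_eq_abs] at this
  have : ‖p‖ < 1 := by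
    rw [pi_norm_lt_iff one_pos]
    intro i
    rw [Real.norm_eq_abs]
    fin_cases i
    · exact lt_of_le_of_ne (h0 0) h.1
    · exact lt_of_le_of_ne (h0 1) h.2
  exact absurd hp this.ne

theorem seg_ne {x u t : ℝ} (hx : |x| = 1) (hu : |u - 10000 * x| ≤ 1000) (ht : t ∈ Icc (0 : ℝ) 1) :
    (1 - t) * x + t * u ≠ 0 := by
  obtain ⟨h1, h2⟩ := abs_le.1 hu
  obtain ⟨t0, t1⟩ := ht
  rcases (abs_eq zero_le_one).1 hx with rfl | rfl
  · refine ne_of_gt ?_
    nlinarith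
  · refine ne_of_lt ?_
    nlinarith

theorem sq_ge {x u : ℝ} (hx : |x| = 1) (hu : |u - 10000 * x| ≤ 1000) : 9000 ^ 2 ≤ u ^ 2 := by
  obtain ⟨h1, h2⟩ := abs_le.1 hu
  rcases (abs_eq zero_le_one).1 hx with rfl | rfl <;> nlinarith

theorem trap (hN : FarNum) : Trap := by
  intro ρ a c σ hρ hc hc0 hI hσ h4
  obtain ⟨s0, s1, s2⟩ := cont_k hc hσ
  have hS : ∀ p, ‖p‖ ≤ 1 → ConeSys (k0 (σ p) (c p)) (k1 (σ p) (c p)) (k2 (σ p) (c p)) :=
    fun p hp => coneSys hN hρ (hc0 p hp) (hI p hp)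
  obtain ⟨p, hp, hT⟩ := wazewski (E := Fin 2 → ℝ)
    (u := fun p w => ![k0 (σ p) (c p) w + k1 (σ p) (c p) w, k1 (σ p) (c p) w + k2 (σ p) (c p) w])
    (N := fun p w => nu (k0 (σ p) (c p) w) (k1 (σ p) (c p) w) (k2 (σ p) (c p) w))
    (r := 4 * 10 ^ 7) (w₀ := 4)
    (by
      refine continuousOn_pi.2 fun i => ?_
      fin_cases i
      · exact s0.add s1
      · exact s1.add s2)
    ((((s0.pow 2).add (s1.pow 2)).add (s2.pow 2)).sub ((((s0.sub s1).add s2).pow 2).div_const 3))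
    (by
      intro p w _ _ hr h
      have e0 := congrFun h 0
      have e1 := congrFun h 1
      simp only [Matrix.cons_val_zero, Matrix.cons_val_one, Pi.zero_apply] at e0 e1
      rw [nu_eq, e0, e1] at hr
      norm_num at hr)
    (by
      intro p hp
      obtain ⟨u0, u1, -⟩ := h4 p hp.le
      rcases exists_abs_eq_one hp with h | h
      · refine ⟨?_, fun t ht e => seg_ne h u0 ht (by simpa using congrFun e 0)⟩
        have := sq_ge h u0
        rw [nu_eq]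
        nlinarith [sq_nonneg (k0 (σ p) (c p) 4 + k1 (σ p) (c p) 4 -
          2 * (k1 (σ p) (c p) 4 + k2 (σ p) (c p) 4))]
      · refine ⟨?_, fun t ht e => seg_ne h u1 ht (by simpa using congrFun e 1)⟩
        have := sq_ge h u1
        rw [nu_eq]
        nlinarith [sq_nonneg (2 * (k0 (σ p) (c p) 4 + k1 (σ p) (c p) 4) -
          (k1 (σ p) (c p) 4 + k2 (σ p) (c p) 4))])
    (fun p w hp hw hn hr b hb => (hS p hp).exit (h4 p hp).2.2 hw hn hr hb)
  refine ⟨p, hp, fun w hw => abs_le_of_tube (hT w hw).le ?_⟩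
  exact (hS p hp).fence (h4 p hp).2.2 hw fun v hv => (hT v hv.1).le

end Vale.Agent.N264X.P264Z.S
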