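import Vale.Agent.N264X.S.Fin
import Vale.Agent.N264X.S.Trap
import Vale.Agent.N264X.S.Bd
import Vale.Agent.N264X.S.Family

/-!
# P264, block S: existence of the shrinker
-/

namespace Vale.Agent.N264X.P264Z

open Vale.Agent.P264Z

theorem exists_shrinker : ∃ σ, Shrinker 7 σ :=
  S.shrinker_of S.family (S.trap S.farNum) (S.bounds S.farNum)

end Vale.Agent.N264X.P264Z
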